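import Vale.Agent.P277Z.Glc.RatC
import Mathlib.LinearAlgebra.Basis.VectorSpace

/-!
# P277: rational linear algebra
-/

namespace Vale.Agent.N277

open Finsupp

/-- common denominators -/
theorem den {ι : Type} [Fintype ι] (r : ι → ℚ) :
    ∃ N : ℕ, 1 ≤ N ∧ ∃ w : ι → ℤ, ∀ a, (w a : ℚ) = N * r a := by
  classical
  have h4 : ∀ e, ∃ z : ℤ, (z : ℚ) = (∏ e, (r e).den : ℕ) * r e := fun e => by
    obtain ⟨t, ht⟩ := Finset.dvd_prod_of_mem (fun e => (r e).den) (Finset.mem_univ e)
    refine ⟨t * (r e).num, ?_⟩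
    rw [ht, Int.cast_mul, ← Rat.den_mul_eq_num]
    push_cast
    ring
  choose z hz using h4
  exact ⟨_, Finset.one_le_prod' fun e _ => (r e).den_pos, z, hz⟩

/-- the coordinates in a basis of the reals over the rationals -/
theorem hamel {ι : Type} [Fintype ι] (v : ι → ℝ) :
    ∃ (b : ℕ) (y : Fin b → ℝ) (c : Fin b → ℝ →ₗ[ℚ] ℚ), (∀ β, 0 < y β) ∧
      ∀ i, v i = ∑ β, y β * c β (v i) := by
  classical
  let bb := Module.Basis.ofVectorSpace ℚ ℝ
  let Γ := Finset.univ.biUnion fun e => (bb.repr (v e)).support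
  let s : ℝ → ℚ := fun t => if 0 < t then 1 else -1
  have hs : ∀ t : ℝ, |t| * s t = t := fun t => by
    by_cases h : 0 < t
    · simp [s, h, abs_of_pos h]
    · simp [s, h, abs_of_nonpos (not_lt.1 h)]
  refine ⟨_, fun β => |bb (Γ.equivFin.symm β)|,
    fun β => s (bb (Γ.equivFin.symm β)) • bb.coord (Γ.equivFin.symm β),
    fun β => abs_pos.2 (bb.ne_zero _), fun e => ?_⟩
  rw [Γ.equivFin.symm.sum_comp (fun γ => |bb γ| * ((s (bb γ) • bb.coord γ) (v e) : ℝ)),
    Finset.sum_coe_sort Γ fun γ => |bb γ| * ((s (bb γ) • bb.coord γ) (v e) : ℝ)]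
  conv_lhs => rw [← bb.linearCombination_repr (v e), linearCombination_apply,
    sum_of_support_subset _ (Finset.subset_biUnion_of_mem (fun e => (bb.repr (v e)).support)
      (Finset.mem_univ e)) (fun i a => a • bb i) fun _ _ => zero_smul _ _]
  refine Finset.sum_congr rfl fun γ _ => ?_
  rw [LinearMap.smul_apply, smul_eq_mul, Rat.cast_mul, ← mul_assoc, hs, Module.Basis.coord_apply,
    Rat.smul_def, mul_comm]

theorem map_cast (c : ℝ →ₗ[ℚ] ℚ) (t : ℝ) (n : ℤ) : c (t * n) = c t * n := by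
  rw [mul_comm t, mul_comm (c t), ← smul_eq_mul (n : ℚ), ← map_smul, Rat.smul_def, Rat.cast_intCast]

/-- a point is a positive combination of integral points, which are images of the point under
rational linear forms and which have the same signs -/
theorem gens {ι : Type} [Fintype ι] (v : ι → ℝ) :
    ∃ (k : ℕ) (x : Fin k → ℝ) (c : Fin k → ℝ →ₗ[ℚ] ℚ), (∀ a, 0 < x a) ∧
      (∀ i, v i = ∑ a, x a * c a (v i)) ∧ ∀ a i, 0 ≤ v i → ∃ n : ℕ, c a (v i) = n := by
  classical
  obtain ⟨b, y, c, hy, hv⟩ := hamel v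
  let ε := Fintype.equivFin (Fin b ⊕ ι)
  let δ := Fintype.equivFin ι
  let ρ : Fin b ⊕ ι → ℝ := Sum.elim y fun i => if 0 < v i then v i else 1
  let u : ι → Fin b ⊕ ι → ℚ := fun i => if 0 < v i then
    Sum.elim (fun β => c β (v i)) (fun j => if j = i then -1 else 0) else 0
  obtain ⟨k, R, x, hx, hR, h1, h2⟩ := P277Z.Glc.ratC _ _ (fun e => ρ (ε.symm e))
    (fun i e => u (δ.symm i) (ε.symm e)) (fun e => by
      rcases h : ε.symm e with β | i
      · exact hy β
      · simp only [ρ, Sum.elim_inr]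
        split_ifs with h
        exacts [h, one_pos]) (fun i => by
      rw [ε.symm.sum_comp (fun e => (u (δ.symm i) e : ℝ) * ρ e)]
      generalize δ.symm i = i
      by_cases h : 0 < v i
      · simp only [u, ρ, if_pos h, Fintype.sum_sum_type, Sum.elim_inl, Sum.elim_inr]
        rw [Finset.sum_eq_single i (fun j _ hj => by simp [hj]) (by simp), if_pos rfl, if_pos h]
        simp only [mul_comm _ (y _)]
        rw [← hv i]
        simp
      · simp [u, h])
  refine ⟨k, x, fun a => ∑ β, (R a (ε (.inl β)) : ℚ) • c β, hx, fun i => ?_, fun a i hi => ?_⟩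
  · refine (hv i).trans ?_
    have h3 : ∀ β, y β = ∑ a, x a * R a (ε (.inl β)) := fun β => by
      simpa [ρ] using h2 (ε (.inl β))
    simp only [h3, Finset.sum_mul, LinearMap.sum_apply, LinearMap.smul_apply, smul_eq_mul,
      Rat.cast_sum, Rat.cast_mul, Rat.cast_natCast, Finset.mul_sum, mul_assoc]
    exact Finset.sum_comm
  · rcases hi.eq_or_lt with h | h
    · exact ⟨0, by rw [← h, map_zero, Nat.cast_zero]⟩
    · refine ⟨R a (ε (.inr i)), ?_⟩
      have h3 := h1 a (δ i)
      rw [δ.symm_apply_apply, ← ε.sum_comp] at h3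
      simp only [ε.symm_apply_apply, u, if_pos h, Fintype.sum_sum_type, Sum.elim_inl,
        Sum.elim_inr] at h3
      rw [Finset.sum_eq_single i (fun j _ hj => by simp [hj]) (by simp), if_pos rfl] at h3
      simp only [LinearMap.sum_apply, LinearMap.smul_apply, smul_eq_mul, mul_comm (R a _ : ℚ)]
      linarith

end Vale.Agent.N277
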