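import Vale.Agent.N277.Mon
import Vale.Agent.N277.Alg
import Vale.Agent.P277W59.Pic

/-!
# P277: ampleness does not depend on the presentation
-/

open scoped Topology
open Vale.Agent.P277 hiding Amin IsFlipR
open Vale.Agent.P272.K Vale.Agent.P285.H281.FD Vale.Agent.P277Z Vale.Agent.P277Z.St Set Filter
open Vale.Agent.P277W Vale.Agent.P277.HD Function Vale.Agent.P277W59 Finsupp

noncomputable section

namespace Vale.Agent.N277

variable {X Z X' : CSp}

/-- a Cartier divisor `m K + D` with a set `S` of prime divisors which contains the support -/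
structure TW (X : CSp) where
  /-- the prime divisors -/
  S : Finset (PD X)
  /-- the coefficient of `K` -/
  m : ℤ
  /-- the divisor -/
  D : PD X → ℤ
  /-- the line bundle -/
  L : Bd X.pt
  /-- its frames -/
  η : L.ι → (Cm 4 → X.pt) → Cm 4 → ℂ
  tw : IsTw X S m D L η
  off : ∀ P ∉ S, D P = 0

/-- the data of a Cartier divisor -/
def KCart.toTW (C : KCart X) : TW X :=
  ⟨C.D.support, C.m, C.D, C.L, C.η, C.tw, fun _ => notMem_support_iff.1⟩

open Classical in
/-- integral combinations -/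
def TW.lin {ι : Type} [Fintype ι] (T : ι → TW X) (w : ι → ℤ) : TW X where
  S := Finset.univ.biUnion fun a => (T a).S
  m := ∑ a, w a * (T a).m
  D P := ∑ a, w a * (T a).D P
  L := N277.lin (fun a => (T a).L) w
  η i g z := ∏ a, (T a).η (i a) g z ^ w a
  tw := IsTw.lin (fun a => (T a).tw.enl
    (Finset.subset_biUnion_of_mem (fun a => (T a).S) (Finset.mem_univ a)) (T a).off) w
  off P h := Finset.sum_eq_zero fun a _ => by
    rw [(T a).off P fun k => h (Finset.mem_biUnion.2 ⟨a, Finset.mem_univ a, k⟩), mul_zero]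

/-- the line bundle -/
def TW.lb (T : TW X) : LB X := ⟨T.L, T.tw.lb⟩

variable {f : X.pt → Z.pt} {f' : X'.pt → Z.pt} {A : Set Z.pt}

theorem TW.iso (hP : StPrime) (hX : IsNormal 4 X) (hs : IsSmall X Z f A) (hs' : IsSmall X' Z f' A)
    (ψ : PD X ≃ PD X') (hψ : ∀ P, f '' P.1 = f' '' (ψ P).1) (T : TW X) (T' : TW X') {c c' : ℕ}
    (hm : T.m * c' = T'.m * c) (hD : ∀ P, T.D P * c' = T'.D (ψ P) * c) :
    ∃ t, IsIso f f' A (T.L.pow c') (T'.L.pow c) t := by
  classical
  obtain ⟨S₀, hQ⟩ := divs hP hX (T.S ∪ T'.S.map ψ.symm.toEmbedding)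
  refine iso_tw hX hs hs' hQ hψ ψ.injective
    (S' := (T.S ∪ T'.S.map ψ.symm.toEmbedding).map ψ.toEmbedding) (fun P' => Finset.mem_map)
    (T.tw.enl Finset.subset_union_left T.off) (T'.tw.enl (fun P k => ?_) T'.off) hm fun P _ => hD P
  exact Finset.mem_map.2 ⟨ψ.symm P, Finset.mem_union_right _ (Finset.mem_map_of_mem _ k),
    ψ.apply_symm_apply P⟩

theorem TW.rel (hP : StPrime) (hX : IsNormal 4 X) {ι : Type} [Fintype ι] (T : ι → TW X)
    (w : ι → ℤ) (hm : ∑ a, w a * (T a).m = 0) (hD : ∀ P, ∑ a, w a * (T a).D P = 0) :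
    ∑ a, single (T a).lb (w a) ∈ rels X := by
  classical
  have := hX.sing.nonempty
  obtain ⟨t, ht⟩ := TW.iso hP hX small_id small_id (Equiv.refl _) (fun _ => rfl) (TW.lin T w)
    (TW.lin T w) (c := 0) (c' := 1) (by simpa [TW.lin] using hm)
    fun P => by simpa [TW.lin] using hD P
  have hB : ∀ a, (T a).lb ∈ Finset.univ.image fun a => (T a).lb := fun a =>
    Finset.mem_image_of_mem _ (Finset.mem_univ a)
  refine ⟨Finset.univ.image fun a => (T a).lb,
    fun i x => (t (fun a => i (T a).lb) (fun a => i (T a).lb) x)⁻¹, fun K k => by_contra fun e => ?_,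
    fun i x k => ?_⟩
  · refine mem_support_iff.1 k ?_
    rw [finsetSum_apply]
    exact Finset.sum_eq_zero fun a _ => single_eq_of_ne fun c => e (c ▸ hB a)
  · have a := ht.holo x x (fun a => i (T a).lb) (fun a => i (T a).lb) id rfl (fun a => k _ (hB a))
      fun a => k _ (hB a)
    refine ⟨hol_inv a.1 a.2, inv_ne_zero a.2, fun j l => ?_⟩
    have b : t (fun a => j (T a).lb) (fun a => j (T a).lb) x =
        (∏ a, (T a).L.g (i (T a).lb) (j (T a).lb) x ^ w a) ^ 1 *
          t (fun a => i (T a).lb) (fun a => i (T a).lb) x * _ ^ 0 :=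
      ht.change x x (fun a => i (T a).lb) (fun a => j (T a).lb) (fun a => i (T a).lb)
        (fun a => j (T a).lb) id rfl (fun a => k _ (hB a)) (fun a => l _ (hB a))
        (fun a => k _ (hB a)) fun a => l _ (hB a)
    have c : ∏ a, (T a).L.g (i (T a).lb) (j (T a).lb) x ^ w a ≠ 0 :=
      Finset.prod_ne_zero_iff.2 fun a _ => zpow_ne_zero _
        ((T a).tw.lb.ne_zero _ _ x (k _ (hB a)) (l _ (hB a)))
    rw [pw_sum (fun L c => L.2.ne_zero _ _ x (k L c) (l L c)) _ hB]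
    beta_reduce
    rw [b, pow_zero, pow_one, mul_one, mul_inv]
    exact (mul_inv_cancel_left₀ c _).symm

theorem den_sum {ι : Type} [Fintype ι] {c : ℝ →ₗ[ℚ] ℚ} {t : ι → ℝ} {w : ι → ℤ} {N : ℕ}
    (hw : ∀ a, (w a : ℚ) = N * c (t a)) (n : ι → ℤ) :
    ((∑ a, w a * n a : ℤ) : ℚ) = N * c (∑ a, t a * n a) := by
  simp only [Int.cast_sum, Int.cast_mul, hw, map_sum, map_cast, Finset.mul_sum, mul_assoc]

/-- the integral relations -/
def GG (X : CSp) : Set (LB X →₀ ℝ) := {v | ∃ n ∈ rels X, ∀ K, v K = n K}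

theorem ker (hP : StPrime) (hX : IsNormal 4 X) {ι : Type} [Fintype ι] (T : ι → TW X)
    (t : ι → ℝ) (hm : ∑ a, t a * (T a).m = 0) (hD : ∀ P, ∑ a, t a * (T a).D P = 0) :
    ∑ a, single (T a).lb (t a) ∈ Submodule.span ℝ (GG X) := by
  classical
  obtain ⟨b, y, c, -, hv⟩ := hamel t
  choose N hN w hw using fun β => den fun a => c β (t a)
  have e : ∑ a, single (T a).lb (t a) =
      ∑ β, (y β / N β) • ∑ a, single (T a).lb (w β a : ℝ) := by
    simp only [Finset.smul_sum, smul_single, smul_eq_mul]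
    rw [Finset.sum_comm]
    refine Finset.sum_congr rfl fun a _ => ?_
    rw [← single_finsetSum, hv a]
    refine congrArg _ (Finset.sum_congr rfl fun β _ => ?_)
    have k : (w β a : ℝ) = N β * c β (t a) := by exact_mod_cast hw β a
    have : (N β : ℝ) ≠ 0 := Nat.cast_ne_zero.2 (Nat.one_le_iff_ne_zero.1 (hN β))
    rw [k]
    field_simp
  rw [e]
  refine Submodule.sum_mem _ fun β _ => Submodule.smul_mem _ _ (Submodule.subset_span
    ⟨_, TW.rel hP hX T (w β) (Int.cast_injective (α := ℚ) ?_) fun P =>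
      Int.cast_injective (α := ℚ) ?_, fun K => ?_⟩)
  · rw [den_sum (hw β), hm, map_zero, mul_zero, Int.cast_zero]
  · rw [den_sum (hw β), hD, map_zero, mul_zero, Int.cast_zero]
  · simp only [finsetSum_apply, single_apply, Int.cast_sum, Int.cast_ite, Int.cast_zero]

theorem ramp (hP : StPrime) (hX : IsNormal 4 X) {k : ℕ} (T : Fin k → TW X) (ρ : Fin k → ℝ)
    {κ : ℝ} {Δ : Div X} (hm : ∑ e, ρ e * (T e).m = κ) (hD : ∀ P, ∑ e, ρ e * (T e).D P = Δ P)
    (h : Ample X Z f κ Δ) : RAmple X Z f (fun e => (T e).L) ρ := by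
  classical
  obtain ⟨R, a, a0, ha, h⟩ := h
  obtain ⟨q, hq⟩ := Nat.exists_eq_succ_of_ne_zero
    (Finset.card_ne_zero.2 (Finsupp.support_nonempty_iff.2 a0))
  let A : Fin (q + 1) ≃ a.support := (Finset.equivFinOfCardEq hq).symm
  have h0 : PicRel X ≤ Submodule.span ℝ (GG X) := Submodule.span_mono (by
    rintro _ ⟨L, M, N, k, rfl⟩
    refine ⟨_, gen_mem k, fun K => ?_⟩
    simp only [Finsupp.sub_apply, Finsupp.add_apply, single_apply]
    split_ifs <;> norm_num)
  have h3 := ker hP hX (Sum.elim T fun a => (R.C a).toTW) (Sum.elim ρ fun a => -R.ρ a)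
    (by simpa [Fintype.sum_sum_type, hm, KCart.toTW, add_neg_eq_zero] using R.can.symm)
    fun P => by simpa [Fintype.sum_sum_type, hD, KCart.toTW, add_neg_eq_zero] using (R.div P).symm
  obtain ⟨b, m, y, h1, h2⟩ := flat' (rels X) (G := GG X) (fun _ h => h)
    (Sum.elim (fun e => (T e).lb) fun t => (A t).1) (Sum.elim ρ fun t => -a (A t)) (by
      refine Set.mem_of_eq_of_mem ?_ (Submodule.add_mem _ h3 (h0 h))
      rw [Fintype.sum_sum_type, Fintype.sum_sum_type, add_assoc]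
      congr 1
      simp only [Sum.elim_inr, single_neg, Finset.sum_neg_distrib]
      rw [sub_eq_add_neg]
      refine Eq.trans ?_ (neg_add_cancel_left _ _).symm
      conv_rhs => rw [← a.sum_single, Finsupp.sum, ← Finset.sum_coe_sort, ← A.sum_comp])
  refine ⟨q, fun t => (A t).1.1, fun t => a (A t),
    fun t => ⟨(ha _ (A t).2).1, (A t).1.2, (ha _ (A t).2).2⟩, b,
    fun β e => m β (.inl e), fun β t => -m β (.inr t), y, fun β => ?_, fun e => h2 (.inl e),
    fun t => ?_⟩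
  · obtain ⟨t, ht⟩ := triv _ _ (h1 β)
    have k : ∀ (i : ((HD.Bd.lin (fun e => (T e).L) fun e => m β (.inl e)).mul
        (Bd.inv (HD.Bd.lin (fun t => (A t).1.1) fun t => -m β (.inr t)))).ι) x,
        x ∈ Bd.U _ i → ∀ e, x ∈ (Sum.elim (fun e => (T e).lb) (fun t => (A t).1) e).1.U
          (Sum.rec i.1 i.2 e) :=
      fun i x c => Sum.rec c.1 c.2
    refine ⟨fun i => t (Sum.rec i.1 i.2), ⟨fun i x _ c => (ht _ x (k i x c)).1,
      fun i j x _ c d => ((ht _ x (k i x c)).2.2 _ (k j x d)).trans ?_⟩,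
      fun i x c => (ht _ x (k i x c)).2.1⟩
    rw [Fintype.prod_sum_type]
    simp [Bd.mul, Bd.inv, HD.Bd.lin, TW.lb]
  · have := h2 (.inr t)
    simp only [Sum.elim_inr] at this
    simp only [Int.cast_neg, mul_neg, Finset.sum_neg_distrib, ← this, neg_neg]

theorem flipR (hP : StPrime) (hS : StSmall) (hO : StOpen) (hN : IsNormal 4 X) (hZ : IsNormal 4 Z)
    (hN' : IsNormal 4 X') (s : Small X Z f) (s' : Small X' Z f') (ψ : PD X ≃ PD X')
    (hψ : ∀ P, f '' P.1 = f' '' (ψ P).1) {k : ℕ} (T : Fin k → TW X) (T' : Fin k → TW X')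
    {c c' : ℕ} (hc : 1 ≤ c) (hc' : 1 ≤ c') (x : Fin k → ℝ)
    (hm : ∀ e, (T e).m * c' = (T' e).m * c) (hD : ∀ e P, (T e).D P * c' = (T' e).D (ψ P) * c)
    (a : RAmple X Z f (fun e => (T e).L) fun e => -x e / c)
    (a' : RAmple X' Z f' (fun e => (T' e).L) fun e => x e / c') :
    ∃ A, IsFlipR X Z X' f f' A (fun e => (T e).L) (fun e => (T' e).L) (fun _ => c) (fun _ => c')
      x := by
  obtain ⟨_, P, _, hP₁, -⟩ := id a
  obtain ⟨_, P', _, hP', -⟩ := id a'
  obtain ⟨⟨A, s1, s2⟩, n1, n2⟩ := hS X Z X' f f' _ _ hN hZ hN' s s'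
    (hP₁ 0).2.1 (hP₁ 0).2.2 (hP' 0).2.1 (hP' 0).2.2
  have key : ∀ {c : ℕ} {x y ε : ℝ}, 1 ≤ c → 0 < ε → |x * c - y| < ε → |x - y / c| < ε := by
    intro c x y ε hc hε h
    have c1 : (1 : ℝ) ≤ c := by exact_mod_cast hc
    have : x - y / c = (x * c - y) / c := by field_simp
    rw [this, abs_div, abs_of_pos (by linarith : (0 : ℝ) < c), div_lt_iff₀ (by linarith)]
    nlinarith
  refine ⟨A, hN, hZ, hN', s1, s2, n1, n2, fun e => (T e).tw.lb, fun e => (T' e).tw.lb,
    fun e => ⟨_, _, hc', hc, mul_comm _ _, TW.iso hP hN s1 s2 ψ hψ _ _ (hm e) (hD e)⟩, ?_, ?_⟩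
  · obtain ⟨ε, hε, k⟩ := hO X Z f _ _ _ hN s1.holMap (fun e => (T e).tw.lb) a
    refine ⟨ε, hε, fun n D hD hn => ?_⟩
    have := k (-n) D hD fun e => key hc hε (by
      rw [← abs_neg]
      refine lt_of_eq_of_lt (congrArg _ ?_) (hn e)
      simp only [Pi.neg_apply, Int.cast_neg]
      ring)
    have e : HD.Bd.lin (fun e => (T e).L) (-n) = Bd.inv (HD.Bd.lin (fun e => (T e).L) n) := by
      simp [HD.Bd.lin, Bd.inv]
    exact e ▸ this
  · obtain ⟨ε, hε, k⟩ := hO X' Z f' _ _ _ hN' s2.holMap (fun e => (T' e).tw.lb) a'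
    exact ⟨ε, hε, fun n D hD hn => k n D hD fun e => key hc' hε
      (lt_of_eq_of_lt (congrArg _ (by ring)) (hn e))⟩

end Vale.Agent.N277
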