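import Vale.Agent.P277W.St

/-!
# P277: `ℝ`-Cartier divisors `κ K_X + Δ`, generalized lc pairs and flips without `ℚ`-factoriality
-/

open scoped Topology
open Vale.Agent.P285.H281.FD Vale.Agent.P277 Vale.Agent.P277Z.St Vale.Agent.P277W Filter
open Vale.Agent.P272.K (Cm)

noncomputable section

namespace Vale.Agent.N277

/-- The reflexive sheaf `ω^[m](D)` is the line bundle `L` (`D` is supported in `S`): the frame of `L`
over `U i` is the meromorphic `m`-canonical form on the smooth part of `U i` with the divisor `-D`,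
which is `η i g • (dz_1 ∧ ⋯ ∧ dz_4)^m` in the chart `g`. -/
structure IsTw (X : CSp) (S : Finset (PD X)) (m : ℤ) (D : PD X → ℤ) (L : Bd X.pt)
    (η : L.ι → (Cm 4 → X.pt) → Cm 4 → ℂ) : Prop where
  lb : IsLBx X L
  an : ∀ i g z, IsCh X g z → g z ∈ L.U i → (∀ P ∈ S, g z ∉ P.1) →
    η i g z ≠ 0 ∧ AnalyticAt ℂ (η i g) z
  comp : ∀ i g g' (τ : Cm 4 → Cm 4) z, IsCh X g' z → g' z ∈ L.U i → (∀ P ∈ S, g' z ∉ P.1) →
    AnalyticAt ℂ τ z → IsCh X g (τ z) → (∀ᶠ w in 𝓝 z, g' w = g (τ w)) →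
    η i g' z = η i g (τ z) * (fderiv ℂ τ z).det ^ m
  change : ∀ i j g z, IsCh X g z → g z ∈ L.U i → g z ∈ L.U j → (∀ P ∈ S, g z ∉ P.1) →
    η j g z = L.g i j (g z) * η i g z
  ord : ∀ P ∈ S, ∀ i g z ζ, IsCh X g z → g z ∈ L.U i → Eqn ζ z →
    (∀ᶠ w in 𝓝 z, ∀ P' ∈ S, g w ∈ P'.1 ↔ P' = P ∧ ζ w = 0) → Ord (η i g) ζ z (-D P)

/-- a Cartier divisor `m K_X + D` -/
structure KCart (X : CSp) where
  /-- the coefficient of `K_X` -/
  m : ℤ
  /-- the Weil divisor -/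
  D : PD X →₀ ℤ
  /-- the line bundle `ω^[m](D)` -/
  L : Bd X.pt
  /-- its frames -/
  η : L.ι → (Cm 4 → X.pt) → Cm 4 → ℂ
  tw : IsTw X D.support m D L η

/-- `k` is the coefficient of `E` in `m K_W - p^* (m K_X + D)` -/
def KCart.Disc {X W : CSp} (C : KCart X) (p : W.pt → X.pt) (E : PD W) (k : ℤ) : Prop :=
  OrdE W E.1 (fun i => p ⁻¹' C.L.U i) (fun i g => C.η i fun w => p (g w)) k

/-- `ℚ`-factorial -/
def QFact (X : CSp) : Prop :=
  (∀ P : PD X, ∃ (C : KCart X) (r : ℤ), 0 < r ∧ C.m = 0 ∧ C.D = Finsupp.single P r) ∧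
    ∃ C : KCart X, 0 < C.m ∧ C.D = 0

/-- `κ K_X + Δ` is `ℝ`-Cartier: it is the real combination `∑ a, ρ a • C a` -/
structure RCart (X : CSp) (κ : ℝ) (Δ : Div X) where
  /-- the number of the Cartier divisors -/
  n : ℕ
  /-- the Cartier divisors -/
  C : Fin n → KCart X
  /-- their coefficients -/
  ρ : Fin n → ℝ
  can : ∑ a, ρ a * (C a).m = κ
  div : ∀ P, ∑ a, ρ a * (C a).D P = Δ P

/-- a trivial line bundle: it has a section without zeros -/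
def Triv (X : CSp) (L : Bd X.pt) : Prop :=
  ∃ s, IsSecx X Set.univ L s ∧ ∀ i, ∀ x ∈ L.U i, s i x ≠ 0

/-- `Pic X ⊗ ℝ` is the quotient of the real vector space with basis `LB X` by this subspace, which is
spanned by the `[L] + [M] - [N]` with `L ⊗ M ≅ N` -/
def PicRel (X : CSp) : Submodule ℝ (LB X →₀ ℝ) :=
  Submodule.span ℝ {v | ∃ L M N : LB X, Triv X ((L.1.mul M.1).mul (Bd.inv N.1)) ∧
    v = Finsupp.single L 1 + Finsupp.single M 1 - Finsupp.single N 1}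

/-- `κ K_X + Δ` is `ℝ`-Cartier and `f`-ample: in `Pic X ⊗ ℝ` it is a positive combination `A` of
`f`-ample line bundles -/
def Ample (X Z : CSp) (f : X.pt → Z.pt) (κ : ℝ) (Δ : Div X) : Prop :=
  ∃ (R : RCart X κ Δ) (A : LB X →₀ ℝ), A ≠ 0 ∧ (∀ L ∈ A.support, 0 < A L ∧ RelAmple X Z f L.1) ∧
    ∑ a, Finsupp.single ⟨(R.C a).L, (R.C a).tw.lb⟩ (R.ρ a) - A ∈ PicRel X

/-- Generalized lc, `N = M_X`: `D = K_X + B + M_X` is `ℝ`-Cartier, and on all resolutions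
`p = π ∘ q : W → X' → X` all prime divisors `E` have coefficient `≤ 1` in
`Δ_W = p^* D - K_W - q^* M'`. -/
def Glc {X : CSp} (G : GPair X) (N : Div X) : Prop :=
  ∃ R : RCart X 1 (G.B + N), ∀ (W : CSp) (q : W.pt → G.X'.pt), Resol W G.X' q →
    ∀ (E : PD W) (k : Fin R.n → ℤ) (ν : Fin G.k → ℝ),
    (∀ a, (R.C a).Disc (fun w => G.π (q w)) E (k a)) → (∀ j, (G.M j).Pull q E (ν j)) →
    -∑ a, R.ρ a * k a - ∑ j, G.μ j * ν j ≤ 1

/-- An infinite sequence of flips `X i → Z i ← X (i + 1)` of Kähler spaces `X i` which starts from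
`G`; `B i` is the strict transform of `B 0`, `M i` is the trace, `D i = K + B i + M i`. -/
structure Flips (X Z : ℕ → CSp) (f : ∀ i, (X i).pt → (Z i).pt)
    (f' : ∀ i, (X (i + 1)).pt → (Z i).pt) (G : GPair (X 0)) (B M : ∀ i, Div (X i)) : Prop where
  four : ∀ i, Four (X i) ∧ Four (Z i)
  kah : ∀ i, Kahler (X i)
  small : ∀ i, Small (X i) (Z i) (f i) ∧ Small (X (i + 1)) (Z i) (f' i)
  proj : ∀ i, Proj (X i) (Z i) (f i) ∧ Proj (X (i + 1)) (Z i) (f' i)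
  start : B 0 = G.B
  str : ∀ i, push (Z i) (f i) (B i) = push (Z i) (f' i) (B (i + 1))
  trace : ∀ i, G.Trace (X i) (Rel f f' i) (M i)
  neg : ∀ i, Ample (X i) (Z i) (f i) (-1) (-(B i + M i))
  pos : ∀ i, Ample (X (i + 1)) (Z i) (f' i) 1 (B (i + 1) + M (i + 1))

end Vale.Agent.N277
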