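import Vale.Agent.N277.Pre
import Vale.Agent.P277W59.Pre

/-!
# P277: termination of flips without `ℚ`-factoriality
-/

open scoped Manifold ContDiff Topology
open Vale.Agent.P277 hiding Amin IsFlipR
open Vale.Agent.P272.K Vale.Agent.P285.H281.FD Vale.Agent.P277Z Vale.Agent.P277Z.St Set Filter
open Vale.Agent.P277Z.Val Vale.Agent.P277W Vale.Agent.P277.HD Function

noncomputable section

namespace Vale.Agent.N277

theorem stPrime : StPrime :=
  St.prime_of Glc.ghRes0 Glc.ghPrin Glc.ghComp GH.fam Pj.rap Pj.prjs (Pj.F.remg C1.fts)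

variable {X Z : ℕ → CSp} {f : ∀ i, (X i).pt → (Z i).pt} {f' : ∀ i, (X (i + 1)).pt → (Z i).pt}
  {G : GPair (X 0)} {B M : ∀ i, Div (X i)}

/-- the coefficients along the sequence -/
theorem coefs (h : Flips X Z f f' G B M) : (∀ i (P : PD (X i)) (P' : PD (X (i + 1))),
    f i '' P.1 = f' i '' P'.1 → (B (i + 1) + M (i + 1)) P' = (B i + M i) P) ∧
    ∀ (D : PD (X 0)) (P : PD G.X'), G.π '' P.1 = D.1 →
      M 0 D = ∑ j, G.μ j * (G.M j).D P / (G.M j).r := by
  have H := bas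
  have hX : ∀ i, IsNormal 4 (X i) := fun i => (nrm _ (h.four i).1).1
  have hZ : ∀ i, IsNormal 4 (Z i) := fun i => (nrm _ (h.four i).2).1
  have hn := (nrm _ G.four).1
  have := (hX 0).sing.nonempty
  have hs : ∀ i, ∃ A, IsSmall (X i) (Z i) (f i) A ∧ IsSmall (X (i + 1)) (Z i) (f' i) A := fun i =>
    let ⟨⟨P, a, b⟩, P', a', b'⟩ := h.proj i
    (stSmall _ _ _ _ _ P P' (hX i) (hZ i) (hX _) (h.small i).1 (h.small i).2 a b a' b').1
  have back : ∀ i (D : PD (X i)), ∃ D₀, Str f f' i D₀ D := fun i => Nat.rec (fun D => ⟨D, rfl⟩)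
    (fun i r D => by
      obtain ⟨D', a, -⟩ := H.str (hX (i + 1)) (hZ i) (hX i) (h.small i).2 (h.small i).1 D
      obtain ⟨D₀, b⟩ := r D'
      exact ⟨D₀, D', b, a.symm⟩) i
  have cM : ∀ i D₀ (D : PD (X i)), Str f f' i D₀ D → ∀ P : PD G.X', G.π '' P.1 = D₀.1 →
      M i D = ∑ j, G.μ j * (G.M j).D P / (G.M j).r := fun i D₀ D a P b =>
    H.trc (hX 0) (hX i) hn (h.trace i) (fun S k => chn_a hs S k i) (chn_b hs D₀ i D a) b
  refine ⟨fun i P P' e => ?_, fun D => cM 0 D D rfl⟩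
  obtain ⟨D₀, a⟩ := back i P
  obtain ⟨A, hπ⟩ := G.bim
  obtain ⟨P₀, b⟩ := H.up hn (hX 0) hπ D₀
  rw [Finsupp.add_apply, Finsupp.add_apply, cM i _ _ a _ b, cM (i + 1) _ _ ⟨_, a, e⟩ _ b,
    H.coef (hX i) (hZ i) (hX _) (h.small i).1 (h.small i).2 (h.str i) e]

theorem main (hG : Glc G (M 0)) : ¬ Flips X Z f f' G B M := by
  classical
  intro h
  have H := bas
  have hP := stPrime
  have hX : ∀ i, IsNormal 4 (X i) := fun i => (nrm _ (h.four i).1).1
  have hZ : ∀ i, IsNormal 4 (Z i) := fun i => (nrm _ (h.four i).2).1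
  have hn := (nrm _ G.four).1
  obtain ⟨inv, cM⟩ := coefs h
  choose ψ hψ using fun i => str_equiv H (hX i) (hZ i) (hX (i + 1)) (h.small i).1 (h.small i).2
  unfold Glc at hG
  rw [← h.start] at hG
  obtain ⟨R, hR⟩ : ∃ R : ∀ i, RCart (X i) 1 (B i + M i), ∀ (W : CSp) (q : W.pt → G.X'.pt),
      Resol W G.X' q → ∀ (E : PD W) (k : Fin (R 0).n → ℤ) (ν : Fin G.k → ℝ),
      (∀ a, ((R 0).C a).Disc (fun w => G.π (q w)) E (k a)) → (∀ j, (G.M j).Pull q E (ν j)) →
      -∑ a, (R 0).ρ a * k a - ∑ j, G.μ j * ν j ≤ 1 := by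
    obtain ⟨R₀, hR⟩ := hG
    choose R' _ using h.pos
    exact ⟨fun i => Nat.casesOn i R₀ R', hR⟩
  obtain ⟨k, x, c, hx, hv, hc⟩ := gens (ι := Option (Fin G.k ⊕ Fin (R 0).n)) fun o =>
    o.elim 1 (Sum.elim (fun j => G.μ j / (G.M j).r) (R 0).ρ)
  choose m hm using fun e => hc e none zero_le_one
  choose ν hν using fun e j => hc e (some (.inl j)) (div_nonneg (G.nonneg j) (Nat.cast_nonneg _))
  replace hm : ∀ e, c e 1 = m e := hm
  replace hν : ∀ e j, c e (G.μ j / (G.M j).r) = ν e j := hν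
  have h1 : ∑ e, x e * m e = 1 := by simpa [hm] using (hv none).symm
  have h3 : ∀ j, ∑ e, x e * ν e j = G.μ j / (G.M j).r := fun j => by
    simpa [hν] using (hv (some (.inl j))).symm
  have h4 : ∀ a, ∑ e, x e * c e ((R 0).ρ a) = (R 0).ρ a := fun a => (hv (some (.inr a))).symm
  have hΔ : ∀ i P, ∑ e, x e * c e ((B i + M i) P) = (B i + M i) P := fun i => by
    induction i with
    | zero =>
      intro P
      simp only [← (R 0).div P, map_sum, map_cast, Rat.cast_sum, Rat.cast_mul, Rat.cast_intCast,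
        Finset.mul_sum, ← mul_assoc]
      rw [Finset.sum_comm]
      simp only [← Finset.sum_mul, h4]
    | succ i ih =>
      intro P
      obtain ⟨P, rfl⟩ := (ψ i).surjective P
      rw [inv i _ _ (hψ i P), ih]
  choose N hN w hw using fun i => den fun a : Fin k × Fin (R i).n => c a.1 ((R i).ρ a.2)
  let T : ∀ i, Fin k → TW (X i) := fun i e =>
    TW.lin (fun a => ((R i).C a).toTW) fun a => w i (e, a)
  have tm : ∀ i e, ((T i e).m : ℚ) = N i * m e := fun i e =>
    (den_sum (fun a => hw i (e, a)) fun a => ((R i).C a).m).trans (by rw [(R i).can, hm])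
  have tD : ∀ i e P, ((T i e).D P : ℚ) = N i * c e ((B i + M i) P) := fun i e P =>
    (den_sum (fun a => hw i (e, a)) fun a => ((R i).C a).D P).trans (by rw [(R i).div])
  have N0 : ∀ i, (N i : ℝ) ≠ 0 := fun i => Nat.cast_ne_zero.2 (Nat.one_le_iff_ne_zero.1 (hN i))
  have sm : ∀ i, ∑ e, x e / N i * (T i e).m = 1 := fun i =>
    (Finset.sum_congr rfl fun e _ => by
      rw [show ((T i e).m : ℝ) = N i * m e by exact_mod_cast tm i e, ← mul_assoc,
        div_mul_cancel₀ _ (N0 i)]).trans h1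
  have sD : ∀ i P, ∑ e, x e / N i * (T i e).D P = (B i + M i) P := fun i P =>
    (Finset.sum_congr rfl fun e _ => by
      rw [show ((T i e).D P : ℝ) = N i * c e ((B i + M i) P) by exact_mod_cast tD i e P,
        ← mul_assoc, div_mul_cancel₀ _ (N0 i)]).trans (hΔ i P)
  choose A hA using fun i => flipR hP stSmall
    (St.open_of Glc.ghRes0 Val.ampC Val.an Pj.rap (Pj.F.genpt C1.fts)) (hX i) (hZ i) (hX (i + 1))
    (h.small i).1 (h.small i).2 (ψ i) (hψ i) (T i) (T (i + 1)) (hN i) (hN (i + 1)) x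
    (fun e => Int.cast_injective (α := ℚ) (by push_cast; rw [tm, tm]; ring))
    (fun e P => Int.cast_injective (α := ℚ) (by
      push_cast; rw [tD, tD, inv i _ _ (hψ i P)]; ring))
    (ramp hP (hX i) _ _ (by simp only [neg_div, neg_mul, Finset.sum_neg_distrib, sm])
      (fun P => by simp only [neg_div, neg_mul, Finset.sum_neg_distrib, sD, Finsupp.neg_apply])
      (h.neg i)) (ramp hP (hX _) _ _ (sm _) (sD _) (h.pos i))
  let U : Glc.Seq k x := ⟨X, Z, f, f', A, fun i e => (T i e).L, fun i _ => N i, fun i _ => hN i, hA⟩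
  obtain ⟨s, e, Q, P, hF, hQ⟩ := fam' H G (hX 0) hn
    (Finset.univ.biUnion fun a => ((R 0).C a).D.support)
  have hC : ∀ a, ↑((R 0).C a).D.support ⊆ range Q := fun a D d =>
    hQ (Finset.mem_biUnion.2 ⟨a, Finset.mem_univ a, d⟩)
  have hK := fun i => P277W83.kah _ (h.kah i)
  let G' := hF.gp hn (P277W83.kah _ G.kah) fun j => P277W83.nef P277W73.cone _ _ G.kah (G.nef j)
  obtain ⟨V, q : V.W → G.X'.pt, exc, χ, hV, hχ, hc'⟩ := St.first_of Glc.ghRes0 Fn.dom Glc.ghPrin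
    Glc.ghComp GH.fam GH.kr GH.kproj GH.kman _ s _ G' (hX 0) (hK 0) (nrm _ (h.four 0).1).2
    fun t => (Q t).2
  have ch : ∀ y ∉ V.E, ∀ e : Chart 4 V.W, At e y →
      IsCh (X 0) (fun w => G.π (q (e.symm w))) (e y) := fun y hy e he =>
    isCh_emb hV.res.emb (fun k => hy ((iUnion₂_subset fun l _ => subset_iUnion V.G l :) k)) he
  have hE : ∀ a, ∀ y ∉ V.E, ∀ D ∈ ((R 0).C a).D.support, G.π (q y) ∉ D.1 := fun a y hy D d k => by
    obtain ⟨t, rfl⟩ := hC a d
    exact hy (hV.sub y t k)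
  choose κ hκ using fun a => monTw (p := fun y => G.π (q y)) hP (hX 0) hV.res.cont hV.res.hol ch
    (hE a) ((R 0).C a).tw
  choose o ho using fun j => ordC V _ _ _ _ _ _ _ _ hV.bim (G'.cart j) hV.sub'
  have hn' := fun a => GH.nef V.W χ G.X' q G.k G'.N (ν a) hχ
    (fun y => ⟨hV.bim.cont.continuousAt, hV.bim.holo y⟩) (Fst.bim_dense hV.bim hn.dense)
    (fun j => (G'.cart j).lb) G'.nef
  have np : ∀ y ∉ V.E, q y ∈ (⋃ u, G'.P u)ᶜ := fun y hy h =>
    let ⟨t, ht⟩ := mem_iUnion.1 h; hy (hV.sub' y t ht)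
  have cmp := cmp_tw (fun y => G.π (q y)) q (fun a => ((R 0).C a).L) G'.N
    (fun a i ch y => ((R 0).C a).η i (fun w => G.π (q (ch.symm w))) (ch y)) κ
    (fun a => ((R 0).C a).m) (fun j i y => G'.τ j i (q y)) o hκ
    (fun a y hy i i₁ e e' a1 a2 a3 a4 => by
      rw [H19.det_jacM a2 a1]
      exact tw_chg (p := fun y => G.π (q y)) ch (hE a) ((R 0).C a).tw hy a1 a2 a3 a4)
    ho (fun j y hy i i₁ a b => (G'.cart j).sec.change i₁ i _ (np y hy) b a)
    (fun e a => w 0 (e, a)) m ν (N 0) fun e => Int.cast_injective (α := ℚ)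
      ((tm 0 e).trans (by push_cast; ring))
  have key : ∀ l, disc x (fun _ => N 0) (fun e => (∑ a, fun l => w 0 (e, a) * κ a l) +
      ∑ j : Fin G.k, fun l => ((ν e j * N 0 : ℕ) : ℤ) * o j l) l =
      ∑ a, (R 0).ρ a * κ a l + ∑ j, G.μ j * (o j l / (G.M j).r) := fun l => by
    have e2 : ∑ j, G.μ j * (o j l / (G.M j).r) = ∑ j, (∑ e, x e * ν e j) * o j l := by
      simp only [h3, div_mul_eq_mul_div, mul_div_assoc]
    have e1 : ∑ a, (R 0).ρ a * κ a l = ∑ a, (∑ e, x e * c e ((R 0).ρ a)) * κ a l := by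
      simp only [h4]
    rw [e1, e2]
    simp only [disc, Pi.add_apply, Finset.sum_apply, Finset.sum_mul]
    rw [Finset.sum_comm, Finset.sum_comm (γ := Fin G.k), ← Finset.sum_add_distrib]
    refine Finset.sum_congr rfl fun a _ => ?_
    have hw' : ∀ b, (w 0 (a, b) : ℝ) = N 0 * c a ((R 0).ρ b) := fun b => by
      exact_mod_cast hw 0 (a, b)
    have := N0 0
    simp only [Int.cast_add, Int.cast_sum, Int.cast_mul, Int.cast_natCast, Nat.cast_mul, hw',
      mul_add, add_div, Finset.mul_sum, Finset.sum_div]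
    refine congrArg₂ _ (Finset.sum_congr rfl fun e _ => ?_) (Finset.sum_congr rfl fun e _ => ?_) <;>
      field_simp
  refine Fn.glc k m x U V χ _ (fun y => G.π (q y)) exc _ hc' hK hx h1
    ⟨hχ, fun a => (hn' a).1, fun a => (hn' a).2, hV.res, cmp⟩ (fun l => ?_) fun l hl => ?_
  · refine (congrArg Neg.neg (key l)).trans_le ?_
    rw [neg_add']
    obtain ⟨y, hy, hy'⟩ := (Lg.freq1 (V.conn l).nonempty.choose_spec).exists
    obtain ⟨ζ, hζ⟩ := V.exEq y
    have he := PH.at_chartAt (n := 4) y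
    set e := chartAt (Cm 4) y
    have ey : e.symm (e y) = y := e.left_inv he.2
    obtain ⟨g1, g2⟩ := gen_pt hy hζ he
    refine hR V.X q ⟨lg_reg, _, hV.bim⟩ ⟨_, prime_G V l⟩ (fun a => κ a l)
      (fun j => o j l / (G.M j).r) (fun a => ?_) fun j => ?_
    · obtain ⟨i, hi⟩ := ((R 0).C a).tw.lb.cover (G.π (q y))
      obtain ⟨⟨u, u1, u2, u3⟩, -⟩ := (hκ a y i e he hi).ord hζ hy' he
      refine ⟨i, e.symm, e y, _, isCh_symm he, ey.symm ▸ hi, g1, g2, u, u1, u2, ?_⟩
      filter_upwards [u3, e.eventually_right_inverse' he.2] with w a b c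
      simpa only [b] using a c
    · obtain ⟨i, hi⟩ := (G'.cart j).lb.cover (q y)
      exact ⟨o j l, ⟨i, e.symm, e y, _, isCh_symm he, ey.symm ▸ hi, g1, g2,
        ((ho j y _ hi).ord hζ hy' he).1⟩, rfl⟩
  · refine (key l).trans_le ?_
    rcases nex_tw hP hF.qi (G := G') (hX 0) hV (fun a => ((R 0).C a).toTW) hC hκ ho hl with
      ⟨a, b⟩ | ⟨t, a, b⟩
    · replace b : ∀ j : Fin G.k, o j l = 0 := b
      simp [a, b]
    · have e1 : ∑ a, (R 0).ρ a * κ a l = -(B 0 + M 0) (Q t) := by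
        rw [← (R 0).div, ← Finset.sum_neg_distrib]
        exact Finset.sum_congr rfl fun a' _ => by
          rw [a a', Int.cast_neg, mul_neg]
          rfl
      have e2 : ∑ j, G.μ j * (o j l / (G.M j).r) = M 0 (Q t) := by
        rw [cM _ _ (hF.str t)]
        exact Finset.sum_congr rfl fun j _ => by
          rw [b j, mul_div_assoc]
          rfl
      have e3 : 0 ≤ G.B (Q t) := G.eff (Q t)
      rw [e1, e2, Finsupp.add_apply, h.start]
      linarith

end Vale.Agent.N277
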