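import Vale.Agent.N277.Tw

/-!
# P277: the frames of `ω^[m](D)` are monomials on log resolutions
-/

open scoped Topology
open Vale.Agent.P277 hiding Amin IsFlipR
open Vale.Agent.P272.K Vale.Agent.P285.H281.FD Vale.Agent.P277Z Vale.Agent.P277Z.St Set Filter
open Vale.Agent.P277Z.St.Pr Vale.Agent.P277Z.Val Vale.Agent.P277W Vale.Agent.P277.HD Function
open Vale.Agent.P277Z.Glc
open Vale.Agent.P277.PH (HolF at_chartAt ev_symm)

noncomputable section

namespace Vale.Agent.N277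

variable {X : CSp} {S : Finset (PD X)} {m : ℤ} {D : PD X → ℤ} {L : Bd X.pt}
  {η : L.ι → (Cm 4 → X.pt) → Cm 4 → ℂ}

theorem divs (hP : StPrime) (hX : IsNormal 4 X) (S : Finset (PD X)) :
    ∃ S₀, Divs X (fun P : S => P.1.1) S₀ :=
  hP X S _ hX (fun P => P.1.2) (Subtype.val_injective.comp Subtype.val_injective)

theorem ext_hol (hX : IsNormal 4 X) {V D E : Set X.pt} (hV : IsOpen V) (hD : Dense Dᶜ)
    (hE : IsAn X univ E) (hd : DimLe X 2 E) {T : X.pt → ℂ}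
    (h : ∀ x ∈ V \ E, ∃ u, X.Hol u x ∧ ∀ᶠ y in 𝓝 x, y ∉ D → T y = u y) :
    ∃ G, (∀ x ∈ V, X.Hol G x) ∧ ∀ x ∈ V \ E, x ∉ D → G x = T x := by
  choose! u h1 h3 using h
  have h4 : ∀ x ∈ V \ E, X.Hol (fun y => u y y) x := fun x hx => by
    refine hol_congr (h1 x hx) ?_
    filter_upwards [(hV.sdiff (isClosed_of_isAn hE)).mem_nhds hx, hol_eventually (h1 x hx),
      (h3 x hx).eventually_nhds] with y a b c
    refine (eventuallyEq_of_dense hD (h1 y a) b ?_).self_of_nhds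
    filter_upwards [c, h3 y a] with w k1 k2 k3 using (k2 k3).symm.trans (k1 k3)
  obtain ⟨G, k1, k2⟩ := hX.ext V E hV (hE.mono (subset_univ _)) (hd.mono inter_subset_right) _ h4
  exact ⟨G, k1, fun x hx hx' => (k2 x hx).trans ((h3 x hx).self_of_nhds hx').symm⟩

/-- the form `v • (dG_1 ∧ ⋯ ∧ dG_4)^n` is a holomorphic section -/
theorem exists_J {n : ℕ} (hP : StPrime) (hX : IsNormal 4 X) (hc : IsTw X S n D L η) {N : Set X.pt}
    (hN : IsOpen N) {G : X.pt → Cm 4} (hG : ∀ x ∈ N, ∀ a, X.Hol (fun x => G x a) x)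
    {v : S → X.pt → ℂ} (hv : ∀ P, ∀ x ∈ N, X.Hol (v P) x ∧ (x ∈ P.1.1 → v P x = 0)) {i : L.ι}
    (hi : N ⊆ L.U i) : ∃ J : X.pt → ℂ, (∀ x ∈ N, X.Hol J x) ∧ ∀ g z, IsCh X g z → g z ∈ N →
      (∀ P ∈ S, g z ∉ P.1) → η i g z * J (g z) =
        (∏ P, v P (g z) ^ (D P).natAbs) * (fderiv ℂ (fun w => G (g w)) z).det ^ n := by
  classical
  have := hX.sing.nonempty
  obtain ⟨S₀, hQ⟩ := divs hP hX S
  choose! c s hs e using fun x (h : IsReg 4 X x) => exists_isChO h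
  have an : ∀ g z, IsCh X g z → g z ∈ N → AnalyticAt ℂ (fun w => G (g w)) z := fun g z a b =>
    AnalyticAt.pi fun j => a.1.analyticAt (hG _ b j)
  set J : X.pt → ℂ := fun x => (∏ P, v P x ^ (D P).natAbs) *
    (fderiv ℂ (fun w => G (c x w)) (s x)).det ^ n / η i (c x) (s x) with hJ
  have key : ∀ g z, IsCh X g z → g z ∈ N → (∀ P ∈ S, g z ∉ P.1) → η i g z * J (g z) =
      (∏ P, v P (g z) ^ (D P).natAbs) * (fderiv ℂ (fun w => G (g w)) z).det ^ n := by
    intro g z a b b'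
    have a1 := hs _ a.regO
    have a2 := e _ a.regO
    obtain ⟨τ, t1, t2, t3⟩ := a1.chgO a.1 a2.symm
    have a3 : c (g z) (s (g z)) ∈ N := a2.symm ▸ b
    rw [hc.comp i _ g τ z a (hi b) b' t1 (t2.symm ▸ a1) t3,
      EventuallyEq.fderiv_eq (f₁ := fun w => G (g w)) (f := fun w => G (c (g z) (τ w)))
        (t3.mono fun w h => congrArg G h), det_comp (φ := fun w => G (c (g z) w))
        (t2.symm ▸ (an _ _ a1 a3).differentiableAt) t1.differentiableAt, t2, hJ, mul_pow,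
      zpow_natCast]
    have := (hc.an i _ _ a1 (hi a3) (a2.symm ▸ b')).1
    field_simp
  have hd : Dense ({x | ¬ IsReg 4 X x} ∪ ⋃ P : S, P.1.1)ᶜ := by
    rw [compl_union]
    exact Dense.inter_of_isOpen_left (hX.dense.mono fun _ => not_not.2) (hQ.dense hX)
      (isClosed_of_isAn (sing_an hX.dense)).isOpen_compl
  obtain ⟨J', j1, j2⟩ := ext_hol hX hN hd (an_union (sing_an hX.dense) (an_inter hQ.anS
    (an_iUnion hQ.an))) (hX.sing.union (hQ.dim.mono inter_subset_left)) (T := J) fun x hx => by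
    obtain ⟨g, z, u, k1, rfl, u1, u3⟩ : ∃ g z, ∃ u : Cm 4 → ℂ, IsCh X g z ∧ g z = x ∧
        AnalyticAt ℂ u z ∧ ∀ᶠ w in 𝓝 z, (∀ P ∈ S, g w ∉ P.1) → η i g w * u w =
          (∏ P, v P (g w) ^ (D P).natAbs) * (fderiv ℂ (fun w => G (g w)) w).det ^ n := by
      by_cases k : ∀ P ∈ S, x ∉ P.1
      · obtain ⟨g, z, hg, rfl⟩ := exists_isCh (not_not.1 fun e => hx.2 (.inl e))
        have a := hc.an i g z hg (hi hx.1) k
        refine ⟨g, z, _, hg, rfl, ((Finset.analyticAt_fun_prod Finset.univ fun P _ =>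
          (hg.1.analyticAt (hv P _ hx.1).1).fun_pow (D P).natAbs).fun_mul
          ((an_jac (an _ _ hg hx.1)).fun_pow n)).fun_div a.2 a.1, ?_⟩
        filter_upwards [a.2.continuousAt.eventually_ne a.1] with w d _
        exact mul_div_cancel₀ _ d
      · push Not at k
        obtain ⟨P, hP, k⟩ := k
        obtain ⟨g, z, ξ, k1, rfl, k2, k3⟩ := loc' hQ hP k fun e =>
          hx.2 (.inr ⟨e, mem_iUnion.2 ⟨⟨P, hP⟩, k⟩⟩)
        obtain ⟨u, a1, a2, a3⟩ := hc.ord P hP i g z ξ k1 (hi hx.1) k2 k3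
        obtain ⟨b, b1, b2⟩ := H762.exists_div (n := 3) (V := Cm 4) (by simp) k2.1 k2.2.2 k2.2.1
          (k1.1.analyticAt (hv ⟨P, hP⟩ _ hx.1).1) (by
            filter_upwards [k3, k1.1.1.eventually (hN.mem_nhds hx.1)] with w l1 l2 l3
            exact (hv ⟨P, hP⟩ _ l2).2 ((l1 P hP).2 ⟨rfl, l3⟩))
        refine ⟨g, z, fun w => (∏ P' ∈ Finset.univ.erase ⟨P, hP⟩, v P' (g w) ^ (D P').natAbs) *
          b w ^ (D P).natAbs * ξ w ^ ((D P).natAbs + D P).toNat *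
          (fderiv ℂ (fun w => G (g w)) w).det ^ n / u w, k1, rfl,
          ((((Finset.analyticAt_fun_prod _ fun P _ =>
            (k1.1.analyticAt (hv P _ hx.1).1).fun_pow _).fun_mul (b1.fun_pow _)).fun_mul
            (k2.1.fun_pow _)).fun_mul ((an_jac (an _ _ k1 hx.1)).fun_pow n)).fun_div a1 a2, ?_⟩
        filter_upwards [k3, a3, b2, a1.continuousAt.eventually_ne a2] with w d2 d3 d4 d5 d6
        have d7 : ξ w ≠ 0 := fun e => d6 P hP ((d2 P hP).2 ⟨rfl, e⟩)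
        rw [d3 d7, ← Finset.prod_erase_mul _ _ (Finset.mem_univ ⟨P, hP⟩), ← zpow_natCast (ξ w),
          Int.toNat_of_nonneg (by omega), zpow_add₀ d7, zpow_natCast, zpow_neg]
        have d8 : v ⟨P, hP⟩ (g w) = ξ w * b w := d4
        have d9 := zpow_ne_zero (D P) d7
        rw [d8, mul_pow]
        field_simp
    obtain ⟨φ, c1, c2, c3, c4⟩ := k1.inv
    refine ⟨_, c4 _ u1, ?_⟩
    filter_upwards [c3, c2.eventually k1.eventually, c2.eventually u3, hN.mem_nhds hx.1]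
      with y d1 d2 d3 l1 l4
    have l5 : ∀ P ∈ S, g (φ y) ∉ P.1 := fun P a e =>
      l4 (.inr (mem_iUnion.2 ⟨⟨P, a⟩, d1 ▸ e⟩))
    rw [← d1] at l1
    have := (key g _ d2 l1 l5).trans (d3 l5).symm
    rw [d1] at this
    exact mul_left_cancel₀ (hc.an i g _ d2 (hi l1) l5).1 this
  refine ⟨J', j1, fun g z a b b' => ?_⟩
  have k : g z ∉ ⋃ P : S, P.1.1 := fun e => let ⟨P, e⟩ := mem_iUnion.1 e; b' P P.2 e
  rw [j2 _ ⟨b, fun e => e.elim (fun e => e a.regO) fun e => k e.2⟩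
    fun e => e.elim (fun e => e a.regO) k, key g z a b b']

variable {V : Lg} {p : V.W → X.pt}

theorem nz_mul {y : V.W} {a b : V.W → ℂ} (ha : HolF 4 a y) (hb : HolF 4 b y) (h : Nz a y)
    (h' : Nz b y) : Nz (fun x => a x * b x) y := Nz.mul (n := 4) ha hb h h'

theorem nz_ex {y : V.W} {a : V.W → ℂ} (ha : HolF 4 a y) (h : Nz a y) {q : V.W → Prop}
    (hq : ∀ᶠ x in 𝓝 y, q x) : ∃ x, (a x ≠ 0 ∧ q x) ∧ x ∉ V.E :=
  (((h.gen (n := 4) ha).and (gen_of_nhds hq)).and (gen_of_open (p := fun x => x ∉ V.E)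
    (.of_forall fun x => (V.freqE x).mono fun _ => V.closedE.isOpen_compl.eventually_mem))).exists

theorem nz_prod {ι : Type} {y : V.W} {a : ι → V.W → ℂ} (h : ∀ i, HolF 4 (a i) y)
    (h' : ∀ i, Nz (a i) y) (T : Finset ι) : Nz (fun x => ∏ i ∈ T, a i x) y := by
  classical
  induction T using Finset.induction_on with
  | empty => exact fun e => one_ne_zero (α := ℂ) (by simpa using e.self_of_nhds)
  | insert i T hi ih =>
    simpa only [Finset.prod_insert hi] using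
      Nz.mul (n := 4) (h i) (Hol.prod T fun i _ => h i) (h' i) ih

section

variable (hP : StPrime) (hX : IsNormal 4 X) (ct : Continuous p)
  (hh : ∀ y g, X.Hol g (p y) → HolF 4 (fun y => g (p y)) y)
  (ch : ∀ y ∉ V.E, ∀ e : Chart 4 V.W, At e y → IsCh X (fun w => p (e.symm w)) (e y))
  (hE : ∀ y ∉ V.E, ∀ P ∈ S, p y ∉ P.1)

include ch hE in
theorem tw_un (hc : IsTw X S m D L η) {y : V.W} (hy : y ∉ V.E) {i : L.ι} {e : Chart 4 V.W}
    (he : At e y) (hi : p y ∈ L.U i) : HolF 4 (fun x => η i (fun w => p (e.symm w)) (e x)) y ∧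
      η i (fun w => p (e.symm w)) (e y) ≠ 0 := by
  have := hc.an i _ _ (ch y hy e he) (by simpa only [e.left_inv he.2] using hi)
    (by simpa only [e.left_inv he.2] using hE y hy)
  exact ⟨(crd_chart he).holF this.2, this.1⟩

include ch hE in
theorem tw_chg (hc : IsTw X S m D L η) {y : V.W} (hy : y ∉ V.E) {i j : L.ι} {e e' : Chart 4 V.W}
    (he : At e y) (he' : At e' y) (hi : p y ∈ L.U i) (hj : p y ∈ L.U j) :
    η j (fun w => p (e'.symm w)) (e' y) = L.g i j (p y) * η i (fun w => p (e.symm w)) (e y) *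
      (fderiv ℂ (fun w => e (e'.symm w)) (e' y)).det ^ m := by
  have h1 := hc.comp j (fun w => p (e.symm w)) (fun w => p (e'.symm w)) (fun w => e (e'.symm w))
    (e' y) (ch y hy e' he')
  have h2 := hc.change i j _ _ (ch y hy e he)
  simp only [e'.left_inv he'.2, e.left_inv he.2] at h1 h2
  rw [h1 hj (hE y hy) (trans_analyticAt he' he) (ch y hy e he)
    (ev_symm he'.2 (P := fun x => p x = p (e.symm (e x)))
    ((e.eventually_left_inverse he.2).mono fun _ h => congrArg p h.symm)), h2 hi hj (hE y hy)]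

include hP hX ct hh ch hE in
theorem monN {n : ℕ} (hc : IsTw X S n D L η) {i : L.ι} {e : Chart 4 V.W} {y : V.W} (he : At e y)
    (hi : p y ∈ L.U i) : ∃ κ, Mon V κ (fun x => η i (fun w => p (e.symm w)) (e x)) y := by
  obtain ⟨N, k, U, Ω, f, φ, hU, M⟩ := X.model (p y)
  have hv : ∀ P : S, ∃ v : X.pt → ℂ, Nz (fun x => v (p x)) y ∧
      ∀ᶠ x in 𝓝 (p y), X.Hol v x ∧ (x ∈ P.1.1 → v x = 0) := fun P => by
    obtain ⟨k, v, a, b⟩ := P.1.2.an (p y) trivial
    by_contra c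
    have d : ∀ t, ∀ᶠ x in 𝓝 y, v t (p x) = 0 := fun t => by_contra fun d => c ⟨v t, d, by
      filter_upwards [hol_eventually (a t), b] with x l1 l2 using ⟨l1, fun l3 => l2.1 l3 t⟩⟩
    obtain ⟨x, l1, l2, l3⟩ := ((V.freqE y).and_eventually ((eventually_all.2 d).and
      (ct.continuousAt.eventually b))).exists
    exact hE x l1 P P.2 (l3.2 l2)
  choose v v1 v2 using hv
  obtain ⟨O, o1, o2, o3⟩ := eventually_nhds_iff.1 ((eventually_all.2 v2).and
    ((M.isOpen.inter (hc.lb.isOpen i)).eventually_mem ⟨hU, hi⟩))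
  have h1 : ∀ᶠ x in 𝓝 y, At e x ∧ p x ∈ O :=
    (At.near he).and (ct.continuousAt.eventually (o2.mem_nhds o3))
  obtain ⟨σ, hσ⟩ : ∃ σ : Fin 4 → Option (Fin N), Nz (fun x =>
      (fderiv ℂ (fun w => Glc.S44.sel σ (φ (p (e.symm w)))) (e x)).det) y := by
    by_contra k
    obtain ⟨x, a, b, c⟩ := ((V.freqE y).and_eventually (h1.and (eventually_all.2 fun σ =>
      not_not.1 (not_exists.1 k σ)))).exists
    obtain ⟨σ, hσ⟩ := (ch x a e b.1).selO M
      (by simpa only [e.left_inv b.1.2] using (o1 _ b.2).2.1)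
    exact hσ (c σ)
  have hG : ∀ x ∈ O, ∀ a, X.Hol (fun x => Glc.S44.sel σ (φ x) a) x := fun x hx a =>
    (M.hol x (o1 x hx).2.1 _).2 ⟨fun w => Glc.S44.sel σ w a,
      analyticAt_pi_iff.1 ((Glc.S44.sel σ).analyticAt _) a, .rfl⟩
  obtain ⟨J, j1, j2⟩ := exists_J hP hX hc o2 hG (fun P x hx => (o1 x hx).1 P)
    fun x hx => (o1 x hx).2.2
  have h2 : ∀ᶠ x in 𝓝 y, x ∉ V.E → η i (fun w => p (e.symm w)) (e x) * J (p x) =
      (∏ P, v P (p x) ^ (D P).natAbs) *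
        (fderiv ℂ (fun w => Glc.S44.sel σ (φ (p (e.symm w)))) (e x)).det ^ n := by
    filter_upwards [h1] with x a b
    have := j2 _ _ (ch x b e a.1)
    simp only [e.left_inv a.1.2] at this
    exact this a.2 (hE x b)
  have h3 : HolF 4 (fun x =>
      (fderiv ℂ (fun w => Glc.S44.sel σ (φ (p (e.symm w)))) (e x)).det) y :=
    (crd_chart he).holF (an_jac (AnalyticAt.pi fun a => hh y _ (hG _ o3 a) e he))
  have h4 : ∀ P, HolF 4 (fun x => v P (p x)) y := fun P => hh y _ ((o1 _ o3).1 P).1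
  have h5 : ∀ {a : V.W → ℂ}, HolF 4 a y → Nz a y → ∀ k : ℕ, HolF 4 (fun x => a x ^ k) y ∧
      Nz (fun x => a x ^ k) y := fun a b k =>
    ⟨fun e he => (a e he).fun_pow k, fun c => b (c.mono fun _ => eq_zero_of_pow_eq_zero)⟩
  have h6 : HolF 4 (fun x => ∏ P, v P (p x) ^ (D P).natAbs) y :=
    fun e he => Finset.analyticAt_fun_prod _ fun P _ => (h5 (h4 P) (v1 P) _).1 e he
  have h7 := nz_mul h6 (h5 h3 hσ n).1
    (nz_prod (fun P => (h5 (h4 P) (v1 P) _).1) (fun P => (h5 (h4 P) (v1 P) _).2) _) (h5 h3 hσ n).2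
  refine exists_mon (h6.mul (h5 h3 hσ n).1) (hh y J (j1 _ o3)) (fun k => ?_) ?_
  · obtain ⟨x, ⟨a, b, c⟩, d⟩ := nz_ex (h6.mul (h5 h3 hσ n).1) h7 (h2.and k)
    exact a (by rw [← b d, c, mul_zero])
  · filter_upwards [h1, h2] with x a b c
    have := tw_un ch hE hc c a.1 (o1 _ a.2).2.2
    exact ⟨this.1, this.2, b c⟩

include hP hX ct hh ch hE in
/-- the frames are monomials -/
theorem monTw (hc : IsTw X S m D L η) : ∃ κ, ∀ y i (e : Chart 4 V.W), At e y → p y ∈ L.U i →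
    Mon V κ (fun x => η i (fun w => p (e.symm w)) (e x)) y := by
  obtain ⟨κ, hκ⟩ : ∃ κ, ∀ c : L.ι × atlas (Cm 4) V.W, ∀ y ∈ c.2.1.source ∩ p ⁻¹' L.U c.1,
      Mon V κ (fun x => η c.1 (fun w => p (c.2.1.symm w)) (c.2.1 x)) y := by
    refine exists_glob' _ _ (fun c => c.2.1.open_source.inter ((hc.lb.isOpen _).preimage ct))
      (fun y => (hc.lb.cover (p y)).elim fun i hi =>
        ⟨(i, ⟨_, (at_chartAt y).1⟩), (at_chartAt y).2, hi⟩) ?_ ?_
    · rintro ⟨i, e, he⟩ y ⟨hy, hi⟩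
      obtain ⟨n, rfl | rfl⟩ := m.eq_nat_or_neg
      · exact monN hP hX ct hh ch hE hc ⟨he, hy⟩ hi
      · have k := IsTw.lin (ι := Unit) (fun _ => hc) fun _ => -1
        rw [show (∑ _ : Unit, -1 * -(n : ℤ)) = n by simp] at k
        obtain ⟨κ, hκ⟩ := monN hP hX ct hh ch hE k (i := fun _ => i) ⟨he, hy⟩ fun _ => hi
        exact ⟨_, by simpa using hκ.zpow (-1)⟩
    · rintro ⟨i, e, he⟩ ⟨j, e', he'⟩ y ⟨hy, hi⟩ ⟨hy', hj⟩
      have h1 := (crd_chart ⟨he', hy'⟩).chg (crd_chart ⟨he, hy⟩)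
      refine ⟨fun x => L.g i j (p x) * (fderiv ℂ (fun w => e (e'.symm w)) (e' x)).det ^ m,
        (hh y _ (hc.lb.holo i j _ hi hj)).mul
          ((crd_chart ⟨he', hy'⟩).holF ((an_jac h1.1).zpow h1.2)),
        mul_ne_zero (hc.lb.ne_zero i j _ hi hj) (zpow_ne_zero m h1.2), ?_⟩
      filter_upwards [At.near ⟨he, hy⟩, At.near ⟨he', hy'⟩, ct.continuousAt.eventually
        (((hc.lb.isOpen i).inter (hc.lb.isOpen j)).mem_nhds ⟨hi, hj⟩)] with x a b c d
      rw [tw_chg ch hE hc d a b c.1 c.2]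
      ring
  exact ⟨κ, fun y i e he hi => hκ (i, ⟨e, he.1⟩) y ⟨he.2, hi⟩⟩

end

/-- the order along a component which is not exceptional -/
theorem ord_tw {O : Set V.W} {y : V.W} {l : Fin V.r} (hv : IsOpenEmb X O p) (hy : y ∈ O)
    (hl : y ∈ V.G l) (hc : IsTw X S m D L η) {P : PD X} (hP : P ∈ S)
    (h : ∀ᶠ x in 𝓝 y, ∀ P' ∈ S, p x ∈ P'.1 ↔ P' = P ∧ x ∈ V.G l) {i : L.ι} (hi : p y ∈ L.U i)
    {e : Chart 4 V.W} (he : At e y) {o : Fin V.r → ℤ}
    (hm : Mon V o (fun x => η i (fun w => p (e.symm w)) (e x)) y) : o l = -D P := by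
  obtain ⟨ζ, hζ⟩ := V.exEq y
  have h0 : ζ l y = 0 := (hζ.iff.self_of_nhds l).2 hl
  obtain ⟨u, u1, u2, u3⟩ := hc.ord P hP i _ _ (fun w => ζ l (e.symm w)) (isCh_emb hv hy he)
    (by simpa only [e.left_inv he.2] using hi)
    ⟨((hζ l).2 e he).1, by simpa only [e.left_inv he.2] using h0, ((hζ l).2 e he).2 h0⟩
    (ev_symm he.2 (P := fun x => ∀ P' ∈ S, p x ∈ P'.1 ↔ P' = P ∧ ζ l x = 0) (by
      filter_upwards [h, hζ.iff] with x a b t' c
      rw [a t' c, b]))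
  refine (hm.unique (n' := Pi.single l (-D P)) (.of_exists hζ ((crd_chart he).holF u1) u2 ?_)
    hl).trans (Pi.single_eq_same _ _)
  filter_upwards [(crd_chart he).cont.eventually u3, (crd_chart he).left, hζ.ne] with x a b c d
  simp only [b] at a
  rw [a (c d l), Finset.prod_eq_single l (fun k _ hk => by simp [hk]) (by simp),
    Pi.single_eq_same]

theorem ord_tw0 {O : Set V.W} {y : V.W} {l : Fin V.r} (hv : IsOpenEmb X O p) (hy : y ∈ O)
    (hl : y ∈ V.G l) (hc : IsTw X S m D L η) (h : ∀ P ∈ S, p y ∉ P.1) {i : L.ι} (hi : p y ∈ L.U i)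
    {e : Chart 4 V.W} (he : At e y) {o : Fin V.r → ℤ}
    (hm : Mon V o (fun x => η i (fun w => p (e.symm w)) (e x)) y) : o l = 0 := by
  have := hc.an i _ _ (isCh_emb hv hy he) (by simpa only [e.left_inv he.2] using hi)
    (by simpa only [e.left_inv he.2] using h)
  exact hm.unique (mon_zero ((crd_chart he).holF this.2) this.1) hl

end Vale.Agent.N277
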