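import Vale.Agent.N277.Main
import Vale.Agent.P277W73b.Exd

/-!
# P277: the divisors `m K_W - p^* (m K_X + D)` exist and are unique
-/

open scoped Topology
open Vale.Agent.P277 hiding Amin IsFlipR
open Vale.Agent.P272.K Vale.Agent.P285.H281.FD Vale.Agent.P277Z Vale.Agent.P277Z.St Set Filter
open Vale.Agent.P277Z.St.Pr Vale.Agent.P277Z.Val Vale.Agent.P277W Vale.Agent.P277.HD
open Vale.Agent.P277W73

noncomputable section

namespace Vale.Agent.N277

variable {W X : CSp} {g g' : Cm 4 → W.pt} {z z' : Cm 4} {ζ ζ' : Cm 4 → ℂ}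

/-- the order of a frame along a hypersurface does not depend on the chart -/
theorem ord_chg {q : W.pt → X.pt} {S m D} {L : Bd X.pt} {η} (hc : IsTw X S m D L η)
    {i : L.ι} {Q T : Set W.pt} {k : ℤ} (h : IsCh W g z) (h' : IsCh W g' z')
    (e : g' z' = g z) (k0 : Eqn ζ z) (k1 : Eqn ζ' z') (k2 : ∀ᶠ w in 𝓝 z, g w ∈ Q ↔ ζ w = 0)
    (k3 : ∀ᶠ w in 𝓝 z', g' w ∈ Q ↔ ζ' w = 0)
    (hT : ∀ g z, IsCh W g z → g z ∉ T → IsCh X (fun w => q (g w)) z ∧ ∀ P ∈ S, q (g z) ∉ P.1)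
    (k4 : ∀ᶠ w in 𝓝 z', ζ' w ≠ 0 → g' w ∉ T ∧ q (g' w) ∈ L.U i)
    (ho : Ord (η i fun w => q (g' w)) ζ' z' k) : Ord (η i fun w => q (g w)) ζ z k := by
  obtain ⟨φ, p1, p2, p3, p4⟩ := h'.dataO
  rw [e] at p1 p2 p4
  have a1 : AnalyticAt ℂ (fun w => φ (g w)) z := AnalyticAt.pi fun a => h.1.analyticAt (p1 a)
  have a2 : φ (g z) = z' := e ▸ p3.self_of_nhds
  have a3 : ∀ᶠ w in 𝓝 z, g w = g' (φ (g w)) := (h.1.1.eventually p4).mono fun _ => Eq.symm
  have t1 : Tendsto (fun w => φ (g w)) (𝓝 z) (𝓝 z') := p2.comp h.1.1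
  have nz := det_ne h a1 (a2.symm ▸ h') a3
  obtain ⟨u, u1, u2, u3⟩ := ord_chart (Φ := fun x => η i (fun w => q (g' w)) (φ x)) (k := k)
    h h' e k0 k1 k2 k3 (by
      obtain ⟨u, u1, u2, u3⟩ := ho
      exact ⟨u, u1, u2, by
        filter_upwards [u3, p3] with w c1 c2
        rwa [c2]⟩)
  refine ⟨fun w => u w * (fderiv ℂ (fun w => φ (g w)) w).det ^ m, u1.mul ((an_jac a1).zpow nz),
    mul_ne_zero u2 (zpow_ne_zero m nz), ?_⟩
  filter_upwards [u3, a1.eventually_analyticAt, a3.eventually_nhds, t1.eventually k4,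
    t1.eventually k3, k2, h.eventually, t1.eventually h'.eventually]
    with w c1 c2 c3 c4 c5 c6 d1 d2 c7
  have c8 := c4 fun c => c7 (c6.1 (c3.self_of_nhds ▸ c5.2 c))
  have c9 := hT g w d1 (c3.self_of_nhds ▸ c8.1)
  rw [hc.comp i (fun w => q (g' w)) (fun w => q (g w)) (fun w => φ (g w)) w c9.1
    (c3.self_of_nhds ▸ c8.2) c9.2 c2 (hT g' _ d2 c8.1).1 (c3.mono fun _ c => congrArg q c), c1 c7]
  ring

theorem disc_ex {q : W.pt → X.pt} (hF : Four X) (hq : Resol W X q) (C : KCart X) :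
    ∃! A : PD W →₀ ℤ, ∀ E, C.Disc q E (A E) := by
  have hX := (nrm X hF).1
  have hW := bas.res hX hq
  obtain ⟨-, A, hb⟩ := hq
  have := hX.sing.nonempty
  have := hW.sing.nonempty
  have hq : ∀ x, HolMap W X q x := fun x => ⟨hb.cont.continuousAt, hb.holo x⟩
  have hc := C.tw
  have aS : IsAn X univ (⋃ P : C.D.support, P.1.1) := an_iUnion fun P => P.1.2.an
  obtain ⟨V, r, exc, hr, hE⟩ := logres_of Glc.ghRes0 Glc.ghPrin Glc.ghComp GH.fam W hW
    (q ⁻¹' (A ∪ ⋃ P : C.D.support, P.1.1)) ((an_union hb.an aS).preimage hq) (by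
      rw [preimage_union, compl_union]
      exact hb.dense.inter_of_isOpen_right (Fst.bim_dense hb (dense_compl_of_dimLe (by norm_num)
        hX.dense (dimLe_iUnion fun t : C.D.support => t.1.2.dim)))
        ((isClosed_of_isAn aS).preimage hb.cont).isOpen_compl)
  have ha := img_of Pj.prjs (Pj.F.remg C1.fts) V W r (res_hol hr) (res_prj Pj.rap hr)
  have ct : Continuous fun y => q (r y) := hb.cont.comp hr.cont
  have hT : ∀ g z, IsCh W g z → g z ∉ q ⁻¹' (A ∪ ⋃ P : C.D.support, P.1.1) →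
      IsCh X (fun w => q (g w)) z ∧ ∀ P ∈ C.D.support, q (g z) ∉ P.1 := fun g z a b =>
    ⟨cht W X q A g z hb a fun k => b (.inl k), fun P k c => b (.inr (mem_iUnion.2 ⟨⟨P, k⟩, c⟩))⟩
  obtain ⟨o, ho⟩ := monTw (V := V) (p := fun y => q (r y)) stPrime hX ct
    (fun y g hg => hr.hol y _ (hb.holo _ g hg)) (fun y hy e he => (hT _ _ (isCh_emb hr.emb (fun k =>
      hy ((iUnion₂_subset fun l _ => subset_iUnion V.G l :) k)) he)
      (by rw [e.left_inv he.2]; exact fun k => hy (hE y k))).1)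
    (fun y hy P k c => hy (hE y (.inr (mem_iUnion.2 ⟨⟨P, k⟩, c⟩)))) hc
  suffices h : ∀ E : PD W, ∃ k : ℤ, (k ≠ 0 → ∃ l, E.1 = r '' V.G l) ∧
      ∀ k', C.Disc q E k' ↔ k' = k by
    choose k h1 h2 using h
    exact ⟨Finsupp.ofSupportFinite k (((finite_range fun l => r '' V.G l).preimage
      (f := Subtype.val) Subtype.val_injective.injOn).subset fun E hE =>
        let ⟨l, hl⟩ := h1 E hE; ⟨l, hl.symm⟩), fun E => (h2 E _).2 rfl,
      fun Γ hΓ => Finsupp.ext fun E => (h2 E _).1 (hΓ E)⟩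
  intro E
  have fin := fun k S => fin_of stPrime hW
    (U := fun i => q ⁻¹' C.L.U i) (fun i => (hc.lb.isOpen i).preimage hb.cont)
    (fun x => hc.lb.cover _) (F := fun i g => C.η i fun w => q (g w)) E (k := k) (S := S)
  by_cases hE' : E.1 ⊆ r '' V.E
  · obtain ⟨l, hl⟩ := prime_eq (res_hol hr) ha E.2 hE'
    refine ⟨o l, fun _ => ⟨l, hl⟩, fin _ ((r '' ⋃ l ∈ exc, V.G l) ∪ ⋃ a : {a : Fin V.r // a ≠ l},
      r '' (V.G l ∩ V.G a.1)) (hr.dim.union (dimLe_iUnion fun a =>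
        dim_img (res_hol hr) (Val.U.thin_inter a.2.symm))) fun i g z ζ a1 a2 a3 a4 a5 => ?_⟩
    obtain ⟨y, hy, e⟩ := hl ▸ a4.self_of_nhds.2 a3.2.1
    have he : y ∉ ⋃ l ∈ exc, V.G l := fun h => a5 (.inl ⟨y, h, e⟩)
    have hk : ∀ k, k ≠ l → y ∉ V.G k := fun k b c =>
      a5 (.inr (mem_iUnion.2 ⟨⟨k, b⟩, y, ⟨hy, c⟩, e⟩))
    obtain ⟨ξ, hξ⟩ := V.exEq y
    have hat := PH.at_chartAt (n := 4) y
    set c := chartAt (Cm 4) y
    have t := c.tendsto_symm hat.2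
    have hi : q (r y) ∈ C.L.U i := e.symm ▸ a2
    obtain ⟨⟨u, u1, u2, u3⟩, m2⟩ := (ho y i c hat hi).ord hξ hk hat
    refine ord_chg hc a1 (isCh_emb hr.emb he hat) (by simp only [c.left_inv hat.2, e]) a3
      (gen_pt hy hξ hat).1 a4 ?_ hT ?_ ⟨u, u1, u2, ?_⟩
    · filter_upwards [t.eventually hξ.iff, t.eventually (hr.emb.isOpen.mem_nhds he)] with w c1 c2
      rw [c1 l, hl]
      exact ⟨fun ⟨y', e3, e4⟩ => hr.inj _ y' c2 e4 ▸ e3, fun e3 => ⟨_, e3, rfl⟩⟩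
    · filter_upwards [m2, t.eventually (ct.continuousAt.eventually ((hc.lb.isOpen i).mem_nhds hi))]
        with w c1 c4 c5 using ⟨fun k => c1 c5 (hE _ k), c4⟩
    · filter_upwards [u3, c.eventually_right_inverse' hat.2] with w c1 c2
      simpa only [c2] using c1
  · have hT' : IsAn W univ (r '' V.E) := by
      rw [Lg.E, image_iUnion]
      exact an_iUnion ha
    refine ⟨0, fun h => absurd rfl h, fin _ _ (P277W83.thin W _ _ hW E.2 hT' hE')
      fun i g z ζ a1 a2 a3 a4 a5 => ?_⟩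
    obtain ⟨y, e⟩ := hr.surj (g z)
    have hy := hT g z a1 fun h => a5 ⟨a4.self_of_nhds.2 a3.2.1, y, hE y (e.symm ▸ h), e⟩
    have := hc.an i _ _ hy.1 a2 hy.2
    exact ⟨_, this.2, this.1, Eventually.of_forall fun w _ => by simp⟩

/-- on a `ℚ`-factorial space all divisors are `ℝ`-Cartier -/
theorem rcart (h : QFact X) (κ : ℝ) (Δ : Div X) : Nonempty (RCart X κ Δ) := by
  classical
  obtain ⟨h, K, k1, k2⟩ := h
  choose C r h1 h2 h3 using h
  let Q := Δ.support.equivFin.symm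
  have k3 : (K.m : ℝ) ≠ 0 := Int.cast_ne_zero.2 k1.ne'
  refine ⟨⟨Δ.support.card + 1, Fin.cons K fun t => C (Q t),
    Fin.cons (κ / K.m) fun t => Δ (Q t) / r (Q t), ?_, fun P => ?_⟩⟩
  · simp [Fin.sum_univ_succ, h2, k3]
  · simp only [Fin.sum_univ_succ, Fin.cons_zero, Fin.cons_succ, k2, h3, Finsupp.coe_zero,
      Pi.zero_apply, Int.cast_zero, mul_zero, zero_add]
    rw [Q.sum_comp fun t => Δ t / r t * (Finsupp.single t.1 (r t) P : ℤ),
      Finset.sum_coe_sort Δ.support fun t => Δ t / r t * (Finsupp.single t (r t) P : ℤ),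
      Finset.sum_eq_single P (fun t _ e => by simp [e.symm])
        fun e => by simp [Finsupp.notMem_support_iff.1 e]]
    have : (r P : ℝ) ≠ 0 := Int.cast_ne_zero.2 (h1 P).ne'
    simp [this]

end Vale.Agent.N277
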