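import Vale.Agent.N277.Amp
import Vale.Agent.P277W59.Kit

/-!
# P277: the first model
-/

open scoped Manifold ContDiff Topology
open Vale.Agent.P277 hiding Amin IsFlipR
open Vale.Agent.P272.K Vale.Agent.P285.H281.FD Vale.Agent.P277Z Vale.Agent.P277Z.St Set Filter
open Vale.Agent.P277Z.Val Vale.Agent.P277W Vale.Agent.P277.HD Function
open Vale.Agent.P277.PH (HolF at_chartAt ev_symm)
open Vale.Agent.P277.T3 (ThinM thinM_iUnion)

noncomputable section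

namespace Vale.Agent.N277

theorem cmp_tw {V : Lg} {X X' : CSp} (p : V.W → X.pt) (q : V.W → X'.pt) {k h k' : ℕ}
    (L : Fin k → Bd X.pt) (N : Fin h → Bd X'.pt) (F : ∀ e, (L e).ι → Chart 4 V.W → V.W → ℂ)
    (O : Fin k → Fin V.r → ℤ) (J : Fin k → ℤ) (τ : ∀ j, (N j).ι → V.W → ℂ)
    (o : Fin h → Fin V.r → ℤ)
    (hF : ∀ e y i ch, At ch y → p y ∈ (L e).U i → Mon V (O e) (F e i ch) y)
    (hF' : ∀ e, ∀ y ∉ V.E, ∀ i i₁ ch ch₁, At ch y → At ch₁ y → p y ∈ (L e).U i →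
      p y ∈ (L e).U i₁ →
      F e i₁ ch₁ y = (L e).g i i₁ (p y) * F e i ch y * (jacM ch₁ ch y).det ^ J e)
    (hτ : ∀ j y i, q y ∈ (N j).U i → Mon V (o j) (τ j i) y)
    (hτ' : ∀ j, ∀ y ∉ V.E, ∀ i i₁, q y ∈ (N j).U i → q y ∈ (N j).U i₁ →
      τ j i₁ y = (N j).g i₁ i (q y) * τ j i y)
    (B : Fin k' → Fin k → ℤ) (m : Fin k' → ℕ) (ν : Fin k' → Fin h → ℕ) (c : ℕ)
    (hB : ∀ a, ∑ e, B a e * J e = (m a * c : ℕ)) :
    ∃ t, T2.IsCmpV p (fun a => HD.Bd.lin L (B a)) (fun a => (((Bd.can 4 V.W).pow (m a)).mul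
      (HD.Bd.lin (fun j => pull q (N j)) fun j => ν a j)).pow c) V.G
      (fun a => (∑ e, fun l => B a e * O e l) + ∑ j, fun l => ((ν a j * c : ℕ) : ℤ) * o j l) t := by
  refine ⟨fun a i j y => (∏ e, F e (i e) j.1 y ^ B a e) *
    ∏ b, τ b (j.2 b) y ^ ((ν a b * c : ℕ) : ℤ), fun y => ?_, fun y a i i₁ j j₁ hy h1 h2 h3 h4 => ?_⟩
  · obtain ⟨ζ, hζ⟩ := V.exEq y
    refine ⟨ζ, hζ, fun a i j hi hj => ?_⟩
    obtain ⟨u, a1, a2, a3⟩ := (Mon.prod Finset.univ fun e => (hF e y (i e) j.1 hj.1 (hi e)).zpow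
      (B a e)).mul (Mon.prod Finset.univ fun b => (hτ b y (j.2 b) (hj.2 b)).zpow
        ((ν a b * c : ℕ) : ℤ)) ζ hζ
    exact ⟨u, a2, a1, a3⟩
  · show _ = (∏ e, (L e).g (i e) (i₁ e) (p y) ^ B a e) * _ * ((jacM j₁.1 j.1 y).det ^ m a *
      ∏ b, (N b).g (j₁.2 b) (j.2 b) (q y) ^ (ν a b : ℤ)) ^ c
    have d0 : (jacM j₁.1 j.1 y).det ≠ 0 := by
      rw [H19.det_jacM h4.1 h3.1]
      exact ((crd_chart h4.1).chg (crd_chart h3.1)).2
    have hB' : ∏ e, ((jacM j₁.1 j.1 y).det ^ J e) ^ B a e = ((jacM j₁.1 j.1 y).det ^ m a) ^ c := by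
      simp only [← zpow_mul, mul_comm (J _)]
      rw [← zpow_sum' d0, hB, zpow_natCast, pow_mul]
    simp only [fun e => hF' e y hy (i e) (i₁ e) j.1 j₁.1 h3.1 h4.1 (h1 e) (h2 e),
      fun b => hτ' b y hy (j.2 b) (j₁.2 b) (h3.2 b) (h4.2 b), mul_zpow, Finset.prod_mul_distrib,
      hB', mul_pow, zpow_natCast, ← Finset.prod_pow, ← pow_mul]
    ring

/-- the data of a general point of a component -/
theorem gen_pt {V : Lg} {y : V.W} {l : Fin V.r} (hy : y ∈ V.G l) {ζ} (hζ : V.Eq y ζ)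
    {e : Chart 4 V.W} (he : At e y) : Eqn (fun w => ζ l (e.symm w)) (e y) ∧
      ∀ᶠ w in 𝓝 (e y), e.symm w ∈ V.G l ↔ ζ l (e.symm w) = 0 := by
  have z0 : ζ l y = 0 := (hζ.iff.self_of_nhds l).2 hy
  exact ⟨⟨((hζ l).2 e he).1, by simpa only [e.left_inv he.2] using z0, ((hζ l).2 e he).2 z0⟩,
    ((e.tendsto_symm he.2).eventually hζ.iff).mono fun w c => (c l).symm⟩

theorem prime_G (V : Lg) (l : Fin V.r) : IsPrime V.X (V.G l) := by
  have h : Pj.HolTo 4 V.X (id : V.W → V.W) := ⟨continuous_id, fun _ _ h => h⟩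
  refine ⟨fun y _ => ?_, fun A B a b c => ?_, ?_, fun c => ?_⟩
  · obtain ⟨ζ, hζ⟩ := V.exEq y
    exact ⟨1, fun _ => ζ l, fun _ => hζ.hol l, hζ.iff.mono fun x hx =>
      ⟨fun a _ => (hx l).2 a, fun a => (hx l).1 (a 0)⟩⟩
  · exact (Pr.irr_img h l a b ((image_id _).trans_subset c)).imp
      (image_id _).symm.trans_subset (image_id _).symm.trans_subset
  · exact (Pr.dim_img h (Pr.thin_G V l)).mono (image_id _).ge
  · obtain ⟨y, hy⟩ := (V.conn l).nonempty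
    obtain ⟨ζ, hζ⟩ := V.exEq y
    have he := at_chartAt (n := 4) y
    obtain ⟨a, b⟩ := gen_pt hy hζ he
    obtain ⟨w, d, e⟩ := ((hyp V.X _ _ _ _ (isCh_symm he) a c).and_eventually b).exists
    exact d.2 (e.2 d.1)

variable {X Z X' : CSp}

theorem str_equiv (H : Bas) {f : X.pt → Z.pt} {f' : X'.pt → Z.pt} (hX : IsNormal 4 X)
    (hZ : IsNormal 4 Z) (hX' : IsNormal 4 X') (h : Small X Z f) (h' : Small X' Z f') :
    ∃ ψ : PD X ≃ PD X', ∀ P, f '' P.1 = f' '' (ψ P).1 := by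
  choose ψ a b using H.str hX hZ hX' h h'
  choose φ c d using H.str hX' hZ hX h' h
  exact ⟨⟨ψ, φ, fun P => (d _ P (a P).symm).symm, fun P => (b _ P (c P).symm).symm⟩, a⟩

theorem fam' (H : Bas) (G : GPair X) (hX : IsNormal 4 X) (hn : IsNormal 4 G.X')
    (S : Finset (PD X)) : ∃ (s e : ℕ) (q : Fin s → PD X) (P : Fin s ⊕ Fin e → PD G.X'),
      Fam G q P ∧ ↑S ⊆ range q := by
  classical
  obtain ⟨s, e, q, P, h, k⟩ := H.fam { G with
    B := Finsupp.indicator S fun _ _ => 1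
    eff := fun P => by
      rw [Finsupp.indicator_apply]
      split_ifs <;> simp } hX hn
  refine ⟨s, e, q, P, ⟨h.qi, h.pi, h.supp, h.str, h.exc⟩, fun P hP => k ?_⟩
  have hP' : P ∈ S := hP
  simp [Finsupp.indicator_apply, hP']

/-- the orders along the components which are not exceptional -/
theorem nex_tw (hP : StPrime) {s : ℕ} {Q : Fin s → PD X} (hQ : Injective Q)
    {G : GP X fun t => (Q t).1} {V : Lg} {q : V.W → G.X'.pt} {exc} (hX : IsNormal 4 X)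
    (hF : First G V q exc) {n : ℕ} (C : Fin n → TW X) (hC : ∀ a, ↑(C a).S ⊆ range Q)
    {κ : Fin n → Fin V.r → ℤ} {ν : Fin G.k → Fin V.r → ℤ}
    (hκ : ∀ a y i (e : Chart 4 V.W), At e y → G.π (q y) ∈ (C a).L.U i →
      Mon V (κ a) (fun x => (C a).η i (fun w => G.π (q (e.symm w))) (e x)) y)
    (hν : ∀ j y i, q y ∈ (G.N j).U i → Mon V (ν j) (fun y' => G.τ j i (q y')) y) {l : Fin V.r}
    (hl : l ∉ exc) : ((∀ a, κ a l = 0) ∧ ∀ j, ν j l = 0) ∨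
      ∃ t, (∀ a, κ a l = -(C a).D (Q t)) ∧ ∀ j, ν j l = G.n j (.inl t) := by
  obtain ⟨S, hD⟩ := hP X _ (fun t => (Q t).1) hX (fun t => (Q t).2) (Subtype.val_injective.comp hQ)
  obtain ⟨S', hD'⟩ := hP G.X' _ G.P G.normal G.prime G.inj
  have hp := hF.res.emb
  have hq : IsOpenEmb G.X' (⋃ l ∈ exc, V.G l)ᶜ q := hF.bim.embO.mono hp.isOpen
    fun y hy ⟨y', a, b⟩ => hy (hF.res.inj y y' hy b ▸ a)
  obtain ⟨y₀, h0⟩ := (V.conn l).nonempty
  have : Nonempty V.W := ⟨y₀⟩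
  obtain ⟨y, hy, hB⟩ := (U.not_thin h0 (((U.thin_notGen V l).union (thin_pre hp hD.dim y₀)).union
    ((thin_pre hq hD'.dim y₀).union (thinM_iUnion fun u => thin_pre hp (G.exc u) y₀)))).exists
  simp only [mem_union, not_or, mem_iUnion (s := fun u => _ ∩ _), not_exists] at hB
  obtain ⟨⟨b1, b2⟩, b3, b4⟩ := hB
  have hg : U.Gen V l y := by_contra fun c => b1 ⟨hy, c⟩
  have hO : y ∈ (⋃ l ∈ exc, V.G l)ᶜ := fun e => by
    obtain ⟨k, k1, k2⟩ := mem_iUnion₂.1 e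
    exact hg.2 k (fun e => hl (e ▸ k1)) k2
  choose a ha using fun t => (C t).tw.lb.cover (G.π (q y))
  choose b hb using fun j => (G.cart j).lb.cover (q y)
  have he := at_chartAt (n := 4) y
  by_cases h : ∃ t, G.π (q y) ∈ (Q t).1
  · obtain ⟨t, ht⟩ := h
    have h1 : q y ∈ G.P (.inl t) := by
      obtain ⟨x, c, d⟩ : G.π (q y) ∈ G.π '' G.P (.inl t) := (G.str t).symm ▸ ht
      obtain ⟨y', rfl⟩ := hF.bim.surj x
      exact hF.res.inj y y' hO d ▸ c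
    refine .inr ⟨t, fun t' => ?_, fun j => ord_eq hq hO hy (G.cart j)
      (loc_hyp hq hO hg hD' hF.sub' h1 fun c => b3 ⟨hO, c⟩) (hb j) (hν j y _ (hb j))⟩
    have h2 := loc_hyp hp hO hg hD hF.sub ht fun c => b2 ⟨hO, c⟩
    refine ord_tw hp hO hy ((C t').tw.enl (S' := Finset.univ.map ⟨Q, hQ⟩) (fun P c => ?_)
      (C t').off) (Finset.mem_map_of_mem _ (Finset.mem_univ t)) (h2.mono fun x c P d => ?_)
      (ha t') he (hκ t' y _ _ he (ha t'))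
    · obtain ⟨u, rfl⟩ := hC t' c
      exact Finset.mem_map_of_mem _ (Finset.mem_univ u)
    · obtain ⟨u, -, rfl⟩ := Finset.mem_map.1 d
      exact (c u).trans (and_congr_left' hQ.eq_iff.symm)
  · refine .inl ⟨fun t => ord_tw0 hp hO hy (C t).tw (fun P c d => ?_) (ha t) he
      (hκ t y _ _ he (ha t)), fun j => ord_zero hq hO hy (G.cart j) ?_ (hb j) (hν j y _ (hb j))⟩
    · obtain ⟨u, rfl⟩ := hC t c
      exact h ⟨u, d⟩
    rintro (t | u) c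
    · exact h ⟨t, G.str t ▸ mem_image_of_mem G.π c⟩
    · exact b4 u ⟨hO, mem_image_of_mem G.π c⟩

end Vale.Agent.N277
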