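import Vale.Agent.N277.Defs
import Vale.Agent.P277W73.Exp

/-!
# P277: the line bundles `ω^[m](D)`
-/

open scoped Topology
open Vale.Agent.P277 hiding Amin IsFlipR
open Vale.Agent.P272.K Vale.Agent.P285.H281.FD Vale.Agent.P277Z Vale.Agent.P277Z.St Set Filter
open Vale.Agent.P277Z.St.Pr Vale.Agent.P277Z.Val Vale.Agent.P277W Vale.Agent.P277.HD Function
open Vale.Agent.P277Z.Glc

noncomputable section

namespace Vale.Agent.N277

variable {X Z X' : CSp}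

/-- products of powers of line bundles -/
def lin {X ι : Type} [Fintype ι] (L : ι → Bd X) (n : ι → ℤ) : Bd X where
  ι := ∀ e, (L e).ι
  U i := {x | ∀ e, x ∈ (L e).U (i e)}
  g i j x := ∏ e, (L e).g (i e) (j e) x ^ n e

theorem lin_lb {ι : Type} [Fintype ι] {L : ι → Bd X.pt} (hL : ∀ e, IsLBx X (L e)) (n : ι → ℤ) :
    IsLBx X (lin L n) where
  isOpen i := by
    have : (lin L n).U i = ⋂ e, (L e).U (i e) := by
      ext x; simp [lin]
    rw [this]
    exact isOpen_iInter_of_finite fun e => (hL e).isOpen _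
  cover x := by
    choose i hi using fun e => (hL e).cover x
    exact ⟨i, hi⟩
  holo i j x hi hj := hol_prod Finset.univ fun e _ =>
    Rg.hol_zpow ((hL e).holo _ _ x (hi e) (hj e)) ((hL e).ne_zero _ _ x (hi e) (hj e)) _
  ne_zero i j x hi hj :=
    Finset.prod_ne_zero_iff.2 fun e _ => zpow_ne_zero _ ((hL e).ne_zero _ _ x (hi e) (hj e))
  cocycle i j k x hi hj hk := by
    show (∏ e, _) * (∏ e, _) = ∏ e, _
    rw [← Finset.prod_mul_distrib]
    exact Finset.prod_congr rfl fun e _ => by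
      rw [← mul_zpow, (hL e).cocycle _ _ _ x (hi e) (hj e) (hk e)]

theorem det_ne {g g' : Cm 4 → X.pt} {τ : Cm 4 → Cm 4} {z : Cm 4} (h' : IsCh X g' z)
    (t : AnalyticAt ℂ τ z) (h : IsCh X g (τ z)) (e : ∀ᶠ w in 𝓝 z, g' w = g (τ w)) :
    (fderiv ℂ τ z).det ≠ 0 := fun h0 => by
  obtain ⟨σ, b1, b2, b3⟩ := h'.trans h e.self_of_nhds.symm
  obtain ⟨ψ, -, -, q3, -⟩ := h'.dataO
  have e1 : (fun w => σ (τ w)) =ᶠ[𝓝 z] id := by
    have t2 : Tendsto (fun w => σ (τ w)) (𝓝 z) (𝓝 z) :=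
      Tendsto.comp (b1.continuousAt.tendsto.trans_eq (congrArg _ b2)) t.continuousAt.tendsto
    filter_upwards [q3, t2.eventually q3, t.continuousAt.tendsto.eventually b3, e] with w c1 c2 c3 c4
    exact c2.symm.trans ((congrArg ψ (c3.symm.trans c4.symm)).trans c1)
  have := Val.det_comp (φ := σ) (θ := τ) (w := z) b1.differentiableAt t.differentiableAt
  rw [e1.fderiv_eq, h0, mul_zero, fderiv_id, H19.det_id] at this
  exact one_ne_zero this

theorem zpow_sum' {ι : Type} [Fintype ι] {d : ℂ} (h : d ≠ 0) (n : ι → ℤ) :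
    d ^ (∑ a, n a) = ∏ a, d ^ n a := by
  classical
  induction (Finset.univ : Finset ι) using Finset.induction_on with
  | empty => simp
  | insert a T ha ih => rw [Finset.sum_insert ha, Finset.prod_insert ha, zpow_add₀ h, ih]

variable {S S' : Finset (PD X)} {m : ℤ} {D : PD X → ℤ} {L : Bd X.pt}
  {η : L.ι → (Cm 4 → X.pt) → Cm 4 → ℂ}

theorem IsTw.enl (h : IsTw X S m D L η) (hS : S ⊆ S') (h0 : ∀ P ∉ S, D P = 0) :
    IsTw X S' m D L η := by
  refine ⟨h.lb, fun i g z a b c => h.an i g z a b fun P k => c P (hS k),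
    fun i g g' τ z a b c => h.comp i g g' τ z a b fun P k => c P (hS k),
    fun i j g z a b b' c => h.change i j g z a b b' fun P k => c P (hS k),
    fun P _ i g z ζ a b c d => ?_⟩
  by_cases k : P ∈ S
  · exact h.ord P k i g z ζ a b c (d.mono fun w e P' k' => e P' (hS k'))
  · have := h.an i g z a b fun P' k' e => k (((d.self_of_nhds P' (hS k')).1 e).1 ▸ k')
    exact ⟨_, this.2, this.1, .of_forall fun w _ => by simp [h0 P k]⟩

theorem IsTw.lin {ι : Type} [Fintype ι] {m : ι → ℤ} {D : ι → PD X → ℤ} {L : ι → Bd X.pt}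
    {η : ∀ a, (L a).ι → (Cm 4 → X.pt) → Cm 4 → ℂ} (h : ∀ a, IsTw X S (m a) (D a) (L a) (η a))
    (w : ι → ℤ) : IsTw X S (∑ a, w a * m a) (fun P => ∑ a, w a * D a P) (lin L w)
      fun i g z => ∏ a, η a (i a) g z ^ w a := by
  refine ⟨lin_lb (fun a => (h a).lb) w, fun i g z a b c => ?_, fun i g g' τ z a b c d e f => ?_,
    fun i j g z a b b' c => ?_, fun P k i g z ζ a b c d => ?_⟩
  · have k := fun e => (h e).an (i e) g z a (b e) c
    exact ⟨Finset.prod_ne_zero_iff.2 fun e _ => zpow_ne_zero _ (k e).1,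
      Finset.analyticAt_fun_prod _ fun e _ => (k e).2.zpow (k e).1⟩
  · rw [zpow_sum' (det_ne a d e f), ← Finset.prod_mul_distrib]
    refine Finset.prod_congr rfl fun t _ => ?_
    rw [(h t).comp (i t) g g' τ z a (b t) c d e f, mul_zpow, ← zpow_mul, mul_comm (m t)]
  · show _ = (∏ e, _) * _
    rw [← Finset.prod_mul_distrib]
    refine Finset.prod_congr rfl fun t _ => ?_
    rw [(h t).change (i t) (j t) g z a (b t) (b' t) c, mul_zpow]
  · choose u u1 u2 u3 using fun t => (h t).ord P k (i t) g z ζ a (b t) c d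
    refine ⟨fun y => ∏ t, u t y ^ w t, Finset.analyticAt_fun_prod _ fun t _ => (u1 t).zpow (u2 t),
      Finset.prod_ne_zero_iff.2 fun t _ => zpow_ne_zero _ (u2 t), ?_⟩
    filter_upwards [eventually_all.2 u3] with y e e'
    rw [← Finset.sum_neg_distrib, zpow_sum' e', ← Finset.prod_mul_distrib]
    refine Finset.prod_congr rfl fun t _ => ?_
    rw [e t e', mul_zpow, ← zpow_mul, neg_mul, mul_comm (D t P)]

theorem loc' {S₀ : Set X.pt} (hQ : Divs X (fun P : S => P.1.1) S₀) {P : PD X} (hP : P ∈ S)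
    {x : X.pt} (hx : x ∈ P.1) (h0 : x ∉ S₀) : ∃ g z ζ, IsCh X g z ∧ g z = x ∧ Eqn ζ z ∧
      ∀ᶠ w in 𝓝 z, ∀ P' ∈ S, g w ∈ P'.1 ↔ P' = P ∧ ζ w = 0 := by
  obtain ⟨g, z, ζ, a, b, c, d⟩ := hQ.loc (t := ⟨P, hP⟩) hx h0
  exact ⟨g, z, ζ, a, b, c, d.mono fun w e P' k => (e ⟨P', k⟩).trans
    (and_congr_left' Subtype.ext_iff)⟩

theorem off_near {x : X.pt} (h : ∀ P ∈ S, x ∉ P.1) : ∀ᶠ y in 𝓝 x, ∀ P ∈ S, y ∉ P.1 :=
  (eventually_all_finset S).2 fun P k => (isClosed_of_isAn P.2.an).isOpen_compl.mem_nhds (h P k)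

variable {f : X.pt → Z.pt} {f' : X'.pt → Z.pt} {A : Set Z.pt}

/-- the line bundles correspond under small maps -/
theorem iso_tw (hX : IsNormal 4 X) (hs : IsSmall X Z f A) (hs' : IsSmall X' Z f' A)
    {S₀ : Set X.pt} (hQ : Divs X (fun P : S => P.1.1) S₀) {S' : Finset (PD X')} {ψ : PD X → PD X'}
    (hψ : ∀ P, f '' P.1 = f' '' (ψ P).1) (hn : Injective ψ) (hS : ∀ P', P' ∈ S' ↔ ∃ P ∈ S, ψ P = P')
    {m' : ℤ} {D' : PD X' → ℤ} {L' : Bd X'.pt} {η' : L'.ι → (Cm 4 → X'.pt) → Cm 4 → ℂ}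
    (h : IsTw X S m D L η) (h' : IsTw X' S' m' D' L' η') {c c' : ℕ} (hm : m * c' = m' * c)
    (hD : ∀ P ∈ S, D P * c' = D' (ψ P) * c) : ∃ t, IsIso f f' A (L.pow c') (L'.pow c) t := by
  have := hX.sing.nonempty
  have h1 : ∀ x P, f x ∉ A → (hs'.sec (f x) ∈ (ψ P).1 ↔ x ∈ P.1) := fun x t hx =>
    ⟨fun k => by
      obtain ⟨y, hy, e⟩ := (hψ t).superset ⟨_, k, hs'.sec_eq _⟩
      exact hs.inj x y hx e ▸ hy, fun k => by
      obtain ⟨y, hy, e⟩ := (hψ t).subset ⟨_, k, rfl⟩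
      rwa [← e, hs'.sec_apply (e ▸ hx)]⟩
  have h2 : ∀ x, f x ∉ A → (∀ P ∈ S, x ∉ P.1) → ∀ P' ∈ S', hs'.sec (f x) ∉ P'.1 := by
    intro x hx k P' k'
    obtain ⟨P, a, rfl⟩ := (hS P').1 k'
    exact fun e => k P a ((h1 x P hx).1 e)
  choose! G ζ g1 g2 using fun x (hx : IsReg 4 X x) => exists_isCh hx
  have key : ∀ i j g z, IsCh X g z → f (g z) ∉ A → g z ∈ L.U i → hs'.sec (f (g z)) ∈ L'.U j →
      (∀ P ∈ S, g z ∉ P.1) → η i (G (g z)) (ζ (g z)) ^ c' /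
        η' j (fun w => hs'.sec (f (G (g z) w))) (ζ (g z)) ^ c =
      η i g z ^ c' / η' j (fun w => hs'.sec (f (g w))) z ^ c := by
    intro i j g z d l1 l2 l3 l4
    have a1 := g1 _ d.regO
    have a2 := g2 _ d.regO
    obtain ⟨τ, t1, t2, t3⟩ := d.trans a1 a2
    have e1 := h.comp i g (G (g z)) τ _ a1 (a2.symm ▸ l2) (a2.symm ▸ l4) t1 (t2.symm ▸ d) t3
    have e2 := h'.comp j (fun w => hs'.sec (f (g w))) (fun w => hs'.sec (f (G (g z) w))) τ _
      (a1.flip hs hs' (a2.symm ▸ l1)) (by simpa only [a2] using l3)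
      (by simpa only [a2] using h2 _ l1 l4) t1 (t2.symm ▸ d.flip hs hs' l1)
      (t3.mono fun w hw => by rw [hw])
    have e3 := det_ne a1 t1 (t2.symm ▸ d) t3
    rw [e1, e2, t2, mul_pow, mul_pow, ← zpow_natCast (_ ^ m), ← zpow_natCast (_ ^ m'), ← zpow_mul,
      ← zpow_mul, hm, mul_div_mul_right _ _ (zpow_ne_zero _ e3)]
  have hd : Dense ({x | ¬ IsReg 4 X x} ∪ ⋃ P : S, P.1.1)ᶜ := by
    rw [compl_union]
    exact Dense.inter_of_isOpen_left (hX.dense.mono fun _ => not_not.2) (hQ.dense hX)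
      (isClosed_of_isAn (sing_an hX.dense)).isOpen_compl
  have hu : ∀ x, x ∉ {x | ¬ IsReg 4 X x} ∪ ⋃ P : S, P.1.1 → IsReg 4 X x ∧ ∀ P ∈ S, x ∉ P.1 :=
    fun x k => ⟨not_not.1 fun e => k (.inl e), fun P a e => k (.inr (mem_iUnion.2 ⟨⟨P, a⟩, e⟩))⟩
  refine ext_iso hX hs hs' (lb_pow h.lb _) (lb_pow h'.lb _) hd
    (an_union (sing_an hX.dense) hQ.anS) (hX.sing.union hQ.dim)
    (fun i j x => η i (G x) (ζ x) ^ c' / η' j (fun w => hs'.sec (f (G x w))) (ζ x) ^ c)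
    (fun i j x hx hi hj hE => ?_) fun i i₁ j j₁ x hx hD hi hi₁ hj hj₁ => ?_
  · obtain ⟨g, z, u, k1, rfl, u1, u2, u3⟩ : ∃ g z, ∃ u : Cm 4 → ℂ, IsCh X g z ∧ g z = x ∧
        AnalyticAt ℂ u z ∧ u z ≠ 0 ∧ ∀ᶠ w in 𝓝 z, (∀ P ∈ S, g w ∉ P.1) →
          η i g w ^ c' / η' j (fun w => hs'.sec (f (g w))) w ^ c = u w := by
      by_cases k : ∀ P ∈ S, x ∉ P.1
      · obtain ⟨g, z, hg, rfl⟩ := exists_isCh (not_not.1 fun e => hE (.inl e))
        have a := h.an i g z hg hi k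
        have b := h'.an j _ z (hg.flip hs hs' hx) hj (h2 _ hx k)
        exact ⟨g, z, _, hg, rfl, (a.2.fun_pow c').fun_div (b.2.fun_pow c) (pow_ne_zero _ b.1),
          div_ne_zero (pow_ne_zero _ a.1) (pow_ne_zero _ b.1), .of_forall fun _ _ => rfl⟩
      · push Not at k
        obtain ⟨P, hP, k⟩ := k
        obtain ⟨g, z, ξ, k1, rfl, k2, k3⟩ := loc' hQ hP k fun e => hE (.inr e)
        obtain ⟨u, a1, a2, a3⟩ := h.ord P hP i g z ξ k1 hi k2 k3
        obtain ⟨u', b1, b2, b3⟩ := h'.ord (ψ P) ((hS _).2 ⟨P, hP, rfl⟩) j _ z ξ (k1.flip hs hs' hx)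
          hj k2 (by
            filter_upwards [k3, k1.1.1.eventually (near_off hs hx)] with w l1 l2 P' l3
            obtain ⟨P'', l4, rfl⟩ := (hS P').1 l3
            rw [h1 _ _ l2, l1 _ l4, hn.eq_iff])
        refine ⟨g, z, _, k1, rfl, (a1.fun_pow c').fun_div (b1.fun_pow c) (pow_ne_zero _ b2),
          div_ne_zero (pow_ne_zero _ a2) (pow_ne_zero _ b2), ?_⟩
        filter_upwards [k3, a3, b3] with w d2 d3 d4 d5
        have d6 : ξ w ≠ 0 := fun e => d5 P hP ((d2 P hP).2 ⟨rfl, e⟩)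
        rw [d3 d6, d4 d6, mul_pow, mul_pow, ← zpow_natCast (_ ^ (-D P)),
          ← zpow_natCast (_ ^ (-D' (ψ P))), ← zpow_mul, ← zpow_mul, neg_mul, neg_mul, hD P hP,
          mul_div_mul_right _ _ (zpow_ne_zero _ d6)]
    obtain ⟨φ, c1, c2, c3, c4⟩ := k1.inv
    refine ⟨_, c4 _ u1, by rwa [c1], ?_⟩
    filter_upwards [c3, c2.eventually k1.eventually, c2.eventually u3, near_off hs hx,
      (h.lb.isOpen i).mem_nhds hi,
      (holMap_flip hs hs' hx).1.eventually_mem ((h'.lb.isOpen j).mem_nhds hj)]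
      with y d1 d2 d3 l1 l2 l3 l4
    have l5 := (hu y l4).2
    rw [← d1] at l1 l2 l3 l5
    rw [← d3 l5, ← key i j g _ d2 l1 l2 l3 l5, d1]
  · obtain ⟨r, k⟩ := hu x hD
    have a := g1 x r
    have e := g2 x r
    have e1 := h.change i i₁ _ _ a (by rwa [e]) (by rwa [e]) (by rwa [e])
    have e2 := h'.change j₁ j _ _ (a.flip hs hs' (by rwa [e])) (by rwa [e]) (by rwa [e])
      (by simpa only [e] using h2 x hx k)
    have e3 := pow_ne_zero c (h'.lb.ne_zero j₁ j _ hj₁ hj)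
    rw [e] at e1 e2
    change _ = L.g i i₁ x ^ c' * _ * L'.g j₁ j _ ^ c
    rw [e1, e2, mul_pow, mul_pow, mul_div_assoc, mul_assoc, div_mul_eq_div_div_swap,
      div_mul_cancel₀ _ e3]

end Vale.Agent.N277
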